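import Vale.Agent.P150.Gauss
import Vale.Agent.P150.Fast.Dom.LinLaw

/-!
Two correlated copies of a standard Gaussian vector (P150): the law of a rotation of two independent
copies, and the derivative in the angle of the mean of a product of functions of the copies.
-/

open MeasureTheory ProbabilityTheory Real Filter Topology Finset

namespace Vale.Agent.P150.Crit23

variable {ι : Type} [Fintype ι]

/-- The `ℓ¹` norm. -/
def l1 (g : ι → ℝ) : ℝ := ∑ i, |g i|

/-- A continuous function of at most exponential growth. -/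
def Growth (F : (ι → ℝ) → ℝ) : Prop :=
  Continuous F ∧ ∃ C B : ℝ, 0 ≤ C ∧ 0 ≤ B ∧ ∀ g, |F g| ≤ C * exp (B * l1 g)

/-- The first copy. -/
def cg (p : ι ⊕ ι → ℝ) : ι → ℝ := fun i => p (Sum.inl i)

/-- The copy at the angle `θ` to the first one. -/
noncomputable def rot (θ : ℝ) (p : ι ⊕ ι → ℝ) : ι → ℝ :=
  fun i => cos θ * p (Sum.inl i) + sin θ * p (Sum.inr i)

theorem integrable_exp_l1 (B : ℝ) : Integrable (fun g : ι → ℝ => exp (B * l1 g)) (gp ι) := by
  have e : ∀ g : ι → ℝ, exp (B * l1 g) = ∏ i, exp (B * |g i|) := fun g => by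
    rw [← exp_sum, l1, mul_sum]
  simp only [e]
  refine Integrable.fintype_prod (f := fun _ x => exp (B * |x|)) fun _ => ?_
  refine ((integrable_exp_mul_gaussianReal (μ := 0) (v := 1) B).add
    (integrable_exp_mul_gaussianReal (μ := 0) (v := 1) (-B))).mono'
      (Continuous.aestronglyMeasurable (by fun_prop)) (ae_of_all _ fun x => ?_)
  rw [Real.norm_eq_abs, abs_of_pos (exp_pos _), Pi.add_apply]
  rcases abs_choice x with h | h <;> rw [h]
  · linarith [exp_pos (-B * x)]
  · rw [show B * -x = -B * x by ring]; linarith [exp_pos (B * x)]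

theorem l1_cg (p : ι ⊕ ι → ℝ) : l1 (cg p) ≤ l1 p := by
  rw [l1, l1, Fintype.sum_sum_type]
  exact le_add_of_nonneg_right (sum_nonneg fun i _ => abs_nonneg _)

theorem l1_rot (θ : ℝ) (p : ι ⊕ ι → ℝ) : l1 (rot θ p) ≤ l1 p := by
  rw [l1, l1, Fintype.sum_sum_type, ← sum_add_distrib]
  refine sum_le_sum fun i _ => (abs_add_le _ _).trans (add_le_add ?_ ?_)
  · rw [abs_mul]; exact mul_le_of_le_one_left (abs_nonneg _) (abs_cos_le_one θ)
  · rw [abs_mul]; exact mul_le_of_le_one_left (abs_nonneg _) (abs_sin_le_one θ)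

theorem Growth.integrable {F : (ι → ℝ) → ℝ} (h : Growth F) : Integrable F (gp ι) := by
  obtain ⟨hc, C, B, hC, hB, hb⟩ := h
  exact ((integrable_exp_l1 B).const_mul C).mono' hc.aestronglyMeasurable
    (ae_of_all _ fun g => by simpa [Real.norm_eq_abs] using hb g)

theorem growth_const (c : ℝ) : Growth fun _ : ι → ℝ => c :=
  ⟨continuous_const, |c|, 0, abs_nonneg c, le_rfl, fun g => by simp⟩

theorem Growth.add {F G : (ι → ℝ) → ℝ} (hF : Growth F) (hG : Growth G) :
    Growth fun g => F g + G g := by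
  obtain ⟨hc, C, B, hC, hB, hb⟩ := hF
  obtain ⟨hc', C', B', hC', hB', hb'⟩ := hG
  refine ⟨hc.add hc', C + C', B + B', add_nonneg hC hC', add_nonneg hB hB', fun g => ?_⟩
  have h0 : 0 ≤ l1 g := sum_nonneg fun i _ => abs_nonneg _
  refine (abs_add_le _ _).trans ((add_le_add ((hb g).trans ?_) ((hb' g).trans ?_)).trans_eq
    (add_mul C C' (exp ((B + B') * l1 g))).symm)
  · exact mul_le_mul_of_nonneg_left (exp_le_exp.2 (by nlinarith)) hC
  · exact mul_le_mul_of_nonneg_left (exp_le_exp.2 (by nlinarith)) hC'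

theorem Growth.mul {F G : (ι → ℝ) → ℝ} (hF : Growth F) (hG : Growth G) :
    Growth fun g => F g * G g := by
  obtain ⟨hc, C, B, hC, hB, hb⟩ := hF
  obtain ⟨hc', C', B', hC', hB', hb'⟩ := hG
  refine ⟨hc.mul hc', C * C', B + B', mul_nonneg hC hC', add_nonneg hB hB', fun g => ?_⟩
  rw [abs_mul]
  refine (mul_le_mul (hb g) (hb' g) (abs_nonneg _) (by positivity)).trans_eq ?_
  rw [add_mul, exp_add]; ring

theorem Growth.neg {F : (ι → ℝ) → ℝ} (hF : Growth F) : Growth fun g => -F g := by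
  have h := (growth_const (ι := ι) (-1)).mul hF
  simp only [neg_one_mul] at h
  exact h

theorem growth_sum {σ : Type} (s : Finset σ) {F : σ → (ι → ℝ) → ℝ} (h : ∀ i ∈ s, Growth (F i)) :
    Growth fun g => ∑ i ∈ s, F i g := by
  classical
  induction s using Finset.induction_on with
  | empty => simpa using growth_const (ι := ι) 0
  | insert a t ha ih =>
    simp only [sum_insert ha]
    exact (h a (mem_insert_self a t)).add (ih fun i hi => h i (mem_insert_of_mem hi))

theorem growth_coord (i : ι) : Growth fun g : ι → ℝ => g i :=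
  ⟨continuous_apply i, 1, 1, zero_le_one, zero_le_one, fun g => by
    rw [one_mul, one_mul]
    exact (single_le_sum (f := fun j => |g j|) (fun j _ => abs_nonneg _) (mem_univ i)).trans
      ((le_add_of_nonneg_right zero_le_one).trans (add_one_le_exp _))⟩

theorem Growth.comp_cg {F : (ι → ℝ) → ℝ} (hF : Growth F) : Growth fun p : ι ⊕ ι → ℝ => F (cg p) := by
  obtain ⟨hc, C, B, hC, hB, hb⟩ := hF
  exact ⟨hc.comp (by unfold cg; fun_prop), C, B, hC, hB, fun p => (hb _).trans
    (mul_le_mul_of_nonneg_left (exp_le_exp.2 (mul_le_mul_of_nonneg_left (l1_cg p) hB)) hC)⟩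

theorem Growth.comp_rot {F : (ι → ℝ) → ℝ} (hF : Growth F) (θ : ℝ) :
    Growth fun p : ι ⊕ ι → ℝ => F (rot θ p) := by
  obtain ⟨hc, C, B, hC, hB, hb⟩ := hF
  exact ⟨hc.comp (by unfold rot; fun_prop), C, B, hC, hB, fun p => (hb _).trans
    (mul_le_mul_of_nonneg_left (exp_le_exp.2 (mul_le_mul_of_nonneg_left (l1_rot θ p) hB)) hC)⟩

/-- The rotated copy is standard. -/
theorem integral_rot {F : (ι → ℝ) → ℝ} (hF : Growth F) (θ : ℝ) :
    ∫ p, F (rot θ p) ∂gp (ι ⊕ ι) = ∫ g, F g ∂gp ι := by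
  classical
  set T : ι → ι ⊕ ι → ℝ := fun k => Sum.elim (fun i => if i = k then cos θ else 0)
    (fun i => if i = k then sin θ else 0)
  set T' : ι → ι → ℝ := fun k i => if i = k then 1 else 0
  have h : (gp (ι ⊕ ι)).map (Fast.Dom.arrMap T) = (gp ι).map (Fast.Dom.arrMap T') :=
    Fast.Dom.map_gp_eq T T' fun u => by
      rw [Fintype.sum_sum_type]
      simp only [T, T', Sum.elim_inl, Sum.elim_inr, mul_ite, mul_one, mul_zero, sum_ite_eq, mem_univ,
        if_true, mul_pow, ← sum_mul]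
      rw [← mul_add, cos_sq_add_sin_sq, mul_one]
  have e1 : ∀ p, Fast.Dom.arrMap T p = rot θ p := fun p => by
    funext k
    rw [Fast.Dom.arrMap_apply, Fintype.sum_sum_type]
    simp only [T, Sum.elim_inl, Sum.elim_inr, ite_mul, zero_mul, sum_ite_eq', mem_univ, if_true, rot]
  have e2 : ∀ g, Fast.Dom.arrMap T' g = g := fun g => by
    funext k; simp [T', Fast.Dom.arrMap_apply]
  have h' := congrArg (fun μ => ∫ y, F y ∂μ) h
  simp only [integral_map (Fast.Dom.arrMap _).continuous.measurable.aemeasurable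
    hF.1.aestronglyMeasurable, e1, e2] at h'
  exact h'

/-- At a right angle the copies are independent. -/
theorem integral_indep (A B : (ι → ℝ) → ℝ) :
    ∫ p, A (cg p) * B (rot (π / 2) p) ∂gp (ι ⊕ ι) = (∫ g, A g ∂gp ι) * ∫ g, B g ∂gp ι := by
  have e : ∀ p : ι ⊕ ι → ℝ, rot (π / 2) p = fun i => p (Sum.inr i) := fun p => by
    funext i; simp [rot]
  simp only [e]
  have h := (measurePreserving_sumPiEquivProdPi (fun _ : ι ⊕ ι => gaussianReal 0 1)).integral_comp'
    (g := fun q : (ι → ℝ) × (ι → ℝ) => A q.1 * B q.2)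
  exact h.trans (integral_prod_mul A B)

variable [DecidableEq ι]

/-- Differentiability along each coordinate, with gradient `F₁`. -/
def Diff (F : (ι → ℝ) → ℝ) (F₁ : ι → (ι → ℝ) → ℝ) : Prop :=
  ∀ i g, HasDerivAt (fun t => F (Function.update g i t)) (F₁ i g) (g i)

omit [Fintype ι] in
theorem deriv_along {F : (ι → ℝ) → ℝ} {F' : ℝ} {i : ι} {g : ι → ℝ} {a b : ℝ}
    (h : HasDerivAt (fun t => F (Function.update g i t)) F' (g i)) (x : ℝ) (hx : a * x + b = g i) :
    HasDerivAt (fun t => F (Function.update g i (a * t + b))) (F' * a) x := by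
  have h1 : HasDerivAt (fun t : ℝ => a * t + b) a x := by
    simpa using ((hasDerivAt_id x).const_mul a).add_const b
  have h' : HasDerivAt (fun t => F (Function.update g i t)) F' (a * x + b) := by rw [hx]; exact h
  exact h'.comp x h1

/-- The derivative in the angle. -/
theorem rot_deriv {A B : (ι → ℝ) → ℝ} {A₁ B₁ B₂ : ι → (ι → ℝ) → ℝ} (gA : Growth A) (gB : Growth B)
    (gA₁ : ∀ i, Growth (A₁ i)) (gB₁ : ∀ i, Growth (B₁ i)) (gB₂ : ∀ i, Growth (B₂ i))
    (dA : Diff A A₁) (dB₁ : ∀ i g, HasDerivAt (fun t => B₁ i (Function.update g i t)) (B₂ i g) (g i))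
    (dB : ∀ θ p, HasDerivAt (fun r => B (rot r p))
      (∑ i, B₁ i (rot θ p) * (-sin θ * p (Sum.inl i) + cos θ * p (Sum.inr i))) θ) (θ : ℝ) :
    HasDerivAt (fun r => ∫ p, A (cg p) * B (rot r p) ∂gp (ι ⊕ ι))
      (-sin θ * ∫ p, ∑ i, A₁ i (cg p) * B₁ i (rot θ p) ∂gp (ι ⊕ ι)) θ := by
  obtain ⟨hAc, CA, bA, hCA, hbA, hA⟩ := gA
  have gA' : Growth A := ⟨hAc, CA, bA, hCA, hbA, hA⟩
  choose hBc CB bB hCB hbB hB using gB₁
  set D := fun (r : ℝ) (p : ι ⊕ ι → ℝ) => A (cg p)
    * ∑ i, B₁ i (rot r p) * (-sin r * p (Sum.inl i) + cos r * p (Sum.inr i))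
  have hd : ∀ r p, HasDerivAt (fun r => A (cg p) * B (rot r p)) (D r p) r :=
    fun r p => (dB r p).const_mul _
  set bound := fun p : ι ⊕ ι → ℝ => CA * exp (bA * l1 p)
    * ∑ i, CB i * exp (bB i * l1 p) * (|p (Sum.inl i)| + |p (Sum.inr i)|)
  have hbound : ∀ r p, |D r p| ≤ bound p := fun r p => by
    simp only [D, bound, abs_mul]
    refine mul_le_mul ((hA _).trans (mul_le_mul_of_nonneg_left
      (exp_le_exp.2 (mul_le_mul_of_nonneg_left (l1_cg p) hbA)) hCA)) ?_ (abs_nonneg _) (by positivity)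
    refine (abs_sum_le_sum_abs _ _).trans (sum_le_sum fun i _ => ?_)
    rw [abs_mul]
    refine mul_le_mul ((hB i _).trans (mul_le_mul_of_nonneg_left
      (exp_le_exp.2 (mul_le_mul_of_nonneg_left (l1_rot r p) (hbB i))) (hCB i)))
      ((abs_add_le _ _).trans (add_le_add ?_ ?_)) (abs_nonneg _) (mul_nonneg (hCB i) (exp_pos _).le)
    · rw [abs_mul, abs_neg]; exact mul_le_of_le_one_left (abs_nonneg _) (abs_sin_le_one r)
    · rw [abs_mul]; exact mul_le_of_le_one_left (abs_nonneg _) (abs_cos_le_one r)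
  have ge : ∀ b : ℝ, 0 ≤ b → Growth fun p : ι ⊕ ι → ℝ => exp (b * l1 p) := fun b hb =>
    ⟨by unfold l1; fun_prop, 1, b, zero_le_one, hb, fun p => by rw [abs_of_pos (exp_pos _), one_mul]⟩
  have ga : ∀ j : ι ⊕ ι, Growth fun p : ι ⊕ ι → ℝ => |p j| := fun j => by
    obtain ⟨hc, C, b, hC, hb, h⟩ := growth_coord j
    exact ⟨by fun_prop, C, b, hC, hb, fun p => by rw [abs_abs]; exact h p⟩
  have hbi : Integrable bound (gp (ι ⊕ ι)) :=
    (((growth_const CA).mul (ge bA hbA)).mul (growth_sum univ fun i _ =>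
      ((growth_const (CB i)).mul (ge (bB i) (hbB i))).mul ((ga _).add (ga _)))).integrable
  have hDc : ∀ r, Continuous (D r) := fun r => by
    refine (hAc.comp (by unfold cg; fun_prop)).mul (continuous_finsetSum _ fun i _ => ?_)
    exact ((hBc i).comp (by unfold rot; fun_prop)).mul (by fun_prop)
  refine (hasDerivAt_integral_of_dominated_loc_of_deriv_le (F := fun r p => A (cg p) * B (rot r p))
    (F' := D) (bound := bound) univ_mem
    (Eventually.of_forall fun r => ((gA'.comp_cg.mul (gB.comp_rot r)).1).aestronglyMeasurable)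
    (gA'.comp_cg.mul (gB.comp_rot θ)).integrable (hDc θ).aestronglyMeasurable
    (ae_of_all _ fun p r _ => by simpa [Real.norm_eq_abs] using hbound r p) hbi
    (ae_of_all _ fun p r _ => hd r p)).2.congr_deriv ?_
  have gBi : ∀ i, Growth (B₁ i) := fun i => ⟨hBc i, CB i, bB i, hCB i, hbB i, hB i⟩
  have gAB : ∀ i, Growth fun p => A (cg p) * B₁ i (rot θ p) := fun i => gA'.comp_cg.mul ((gBi i).comp_rot θ)
  have gAB1 : ∀ i, Growth fun p => A₁ i (cg p) * B₁ i (rot θ p) := fun i =>
    (gA₁ i).comp_cg.mul ((gBi i).comp_rot θ)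
  have gAB2 : ∀ i, Growth fun p => A (cg p) * B₂ i (rot θ p) := fun i => gA'.comp_cg.mul ((gB₂ i).comp_rot θ)
  have hupd : ∀ (p : ι ⊕ ι → ℝ) i t,
      cg (Function.update p (Sum.inl i) t) = Function.update (cg p) i t ∧
      cg (Function.update p (Sum.inr i) t) = cg p ∧
      rot θ (Function.update p (Sum.inl i) t)
        = Function.update (rot θ p) i (cos θ * t + sin θ * p (Sum.inr i)) ∧
      rot θ (Function.update p (Sum.inr i) t)
        = Function.update (rot θ p) i (sin θ * t + cos θ * p (Sum.inl i)) := fun p i t => by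
    refine ⟨?_, ?_, ?_, ?_⟩ <;> funext j <;> rcases eq_or_ne j i with rfl | h <;>
      simp_all [cg, rot, add_comm]
  have ibl : ∀ i, ∫ p, p (Sum.inl i) * (A (cg p) * B₁ i (rot θ p)) ∂gp (ι ⊕ ι)
      = ∫ p, A₁ i (cg p) * B₁ i (rot θ p) ∂gp (ι ⊕ ι)
        + cos θ * ∫ p, A (cg p) * B₂ i (rot θ p) ∂gp (ι ⊕ ι) := fun i => by
    rw [← integral_const_mul, ← integral_add (gAB1 i).integrable ((gAB2 i).integrable.const_mul _)]
    refine ibp_gen (Sum.inl i) (gAB i).integrable
      ((gAB1 i).integrable.add ((gAB2 i).integrable.const_mul _))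
      ((growth_coord (Sum.inl i)).mul (gAB i)).integrable fun p => ?_
    simp only [(hupd p i _).1, (hupd p i _).2.2.1]
    refine ((dA i (cg p)).mul (deriv_along (dB₁ i (rot θ p)) (p (Sum.inl i)) rfl)).congr_deriv ?_
    have e1 : Function.update (cg p) i (cg p i) = cg p := Function.update_eq_self i (cg p)
    have e2 : Function.update (rot θ p) i (cos θ * cg p i + sin θ * p (Sum.inr i)) = rot θ p :=
      Function.update_eq_self i (rot θ p)
    rw [e1, e2]; ring
  have ibr : ∀ i, ∫ p, p (Sum.inr i) * (A (cg p) * B₁ i (rot θ p)) ∂gp (ι ⊕ ι)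
      = sin θ * ∫ p, A (cg p) * B₂ i (rot θ p) ∂gp (ι ⊕ ι) := fun i => by
    rw [← integral_const_mul]
    refine ibp_gen (Sum.inr i) (gAB i).integrable ((gAB2 i).integrable.const_mul _)
      ((growth_coord (Sum.inr i)).mul (gAB i)).integrable fun p => ?_
    simp only [(hupd p i _).2.1, (hupd p i _).2.2.2]
    exact ((deriv_along (dB₁ i (rot θ p)) (p (Sum.inr i)) (add_comm _ _)).const_mul (A (cg p))).congr_deriv
      (by ring)
  have gl : ∀ i, Growth fun p : ι ⊕ ι → ℝ => p (Sum.inl i) * (A (cg p) * B₁ i (rot θ p)) :=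
    fun i => (growth_coord (Sum.inl i)).mul (gAB i)
  have gr : ∀ i, Growth fun p : ι ⊕ ι → ℝ => p (Sum.inr i) * (A (cg p) * B₁ i (rot θ p)) :=
    fun i => (growth_coord (Sum.inr i)).mul (gAB i)
  have e : ∀ p, D θ p = ∑ i, (-sin θ * (p (Sum.inl i) * (A (cg p) * B₁ i (rot θ p)))
      + cos θ * (p (Sum.inr i) * (A (cg p) * B₁ i (rot θ p)))) := fun p => by
    simp only [D, mul_sum]; exact sum_congr rfl fun i _ => by ring
  simp only [e]
  have hsum : ∀ i, Integrable (fun p => -sin θ * (p (Sum.inl i) * (A (cg p) * B₁ i (rot θ p)))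
      + cos θ * (p (Sum.inr i) * (A (cg p) * B₁ i (rot θ p)))) (gp (ι ⊕ ι)) := fun i =>
    ((gl i).integrable.const_mul _).add ((gr i).integrable.const_mul _)
  rw [integral_finsetSum _ fun i _ => hsum i,
    integral_finsetSum _ fun i _ => (gAB1 i).integrable, mul_sum]
  refine sum_congr rfl fun i _ => ?_
  rw [integral_add ((gl i).integrable.const_mul _) ((gr i).integrable.const_mul _),
    integral_const_mul, integral_const_mul, ibl, ibr]
  ring

end Vale.Agent.P150.Crit23
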