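import Vale.Agent.P150.Crit23.Transfer

/-!
Glauber dynamics of the SK model at the critical temperature (P150): for every `ε > 0`, with
probability tending to one the gap is at most `n ^ (-(2 / 3 - ε))` and the mixing time at least
`n ^ (2 / 3 - ε)`.
-/

open MeasureTheory ProbabilityTheory Real Finset Filter Topology
open scoped Matrix

namespace Vale.Agent.P150.Crit23

open Fast Lanczos

variable {n J : ℕ}

/-- The deficit of the free energy is rarely large. -/
theorem fe_tail (hn : 1 ≤ n) {a : ℝ} (ha : 0 < a) :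
    (disorder n).real {g | fe n g ≤ -a} ≤ (dfe n + 1) / a := by
  obtain ⟨hi, he⟩ := exp_fe_mean hn
  have hint : Integrable (fun g => exp (fe n g) - fe n g) (gp (Pair n)) := hi.sub (growth_fe n).integrable
  have h0 : ∀ g, 0 ≤ exp (fe n g) - fe n g := fun g => by linarith [add_one_le_exp (fe n g)]
  have hm := mul_meas_ge_le_integral_of_nonneg (μ := gp (Pair n)) (ae_of_all _ h0) hint a
  have hs : {g | fe n g ≤ -a} ⊆ {g | a ≤ exp (fe n g) - fe n g} := fun g hg => by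
    simp only [Set.mem_setOf_eq] at hg ⊢
    linarith [exp_pos (fe n g)]
  rw [le_div_iff₀ ha, mul_comm]
  refine ((mul_le_mul_of_nonneg_left (measureReal_mono hs (measure_ne_top _ _)) ha.le).trans hm).trans_eq ?_
  rw [integral_sub hi (growth_fe n).integrable, he, dfe]
  ring

theorem low_partition (hn : 1 ≤ n) {a : ℝ} (ha : 0 < a) :
    (disX n).real {d | log (∑ x, exp (energy n 1 (offd d) x)) ≤ annLogZ n 1 - a} ≤ (dfe n + 1) / a := by
  have e : {d : Dis n | log (∑ x, exp (energy n 1 (offd d) x)) ≤ annLogZ n 1 - a}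
      = offd ⁻¹' {g | fe n g ≤ -a} := by
    ext d
    simp only [Set.mem_setOf_eq, Set.mem_preimage, energy_one, fe, lse, ann, annLogZ]
    constructor <;> intro <;> linarith
  rw [e, (mp_offd n).measureReal_preimage
    (measurableSet_le (continuous_fe n).measurable measurable_const).nullMeasurableSet]
  exact fe_tail hn ha

/-- The small quantity that bounds all exceptional events. -/
noncomputable def tiny (δ : ℝ) (n : ℕ) : ℝ := 12 * ((n : ℝ) + 1) ^ 3 * exp (-((n : ℝ) ^ δ / 8))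

theorem tendsto_tiny {δ : ℝ} (hδ : 0 < δ) : Tendsto (tiny δ) atTop (𝓝 0) := by
  have h : Tendsto (fun n : ℕ => 96 * (((n : ℝ) ^ δ) ^ (3 / δ) * exp (-(1 / 8) * (n : ℝ) ^ δ))) atTop (𝓝 0) := by
    have := ((tendsto_rpow_mul_exp_neg_mul_atTop_nhds_zero (3 / δ) (1 / 8) (by norm_num)).comp
      ((tendsto_rpow_atTop hδ).comp tendsto_natCast_atTop_atTop)).const_mul 96
    simpa using this
  refine tendsto_of_tendsto_of_tendsto_of_le_of_le' tendsto_const_nhds h
    (Eventually.of_forall fun n => by unfold tiny; positivity) ?_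
  filter_upwards [eventually_ge_atTop 1] with n hn
  have hn1 : (1 : ℝ) ≤ n := by exact_mod_cast hn
  rw [← rpow_mul (by positivity), mul_div_cancel₀ _ hδ.ne',
    show (3 : ℝ) = ((3 : ℕ) : ℝ) by norm_num, rpow_natCast, tiny,
    show -((n : ℝ) ^ δ / 8) = -(1 / 8) * (n : ℝ) ^ δ by ring, ← mul_assoc]
  refine mul_le_mul_of_nonneg_right ?_ (exp_pos _).le
  linarith [pow_le_pow_left₀ (by positivity) (show (n : ℝ) + 1 ≤ 2 * n by linarith) 3]

theorem tendsto_deficit {δ : ℝ} (hδ : 0 < δ) :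
    Tendsto (fun n : ℕ => (dfe n + 1) / (n : ℝ) ^ δ) atTop (𝓝 0) := by
  set C := 64 * (8 / δ + 4) ^ 2 + 1
  have h : Tendsto (fun n : ℕ => C * (n : ℝ) ^ (-(δ / 2))) atTop (𝓝 0) := by
    simpa using ((tendsto_rpow_neg_atTop (show 0 < δ / 2 by positivity)).comp
      tendsto_natCast_atTop_atTop).const_mul C
  refine tendsto_of_tendsto_of_tendsto_of_le_of_le' tendsto_const_nhds h ?_ ?_
  · filter_upwards [eventually_ge_atTop 1] with n hn
    have := dfe_nonneg hn
    positivity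
  filter_upwards [eventually_ge_atTop 2] with n hn
  have hn2 : (2 : ℝ) ≤ n := by exact_mod_cast hn
  have hn0 : (0 : ℝ) < n := by linarith
  set y := (n : ℝ) ^ (δ / 4) with hy
  have hy1 : 1 ≤ y := one_le_rpow (by linarith) (by positivity)
  have hlog : log ((n : ℝ) + 1) + 4 ≤ (8 / δ + 4) * y := by
    have h1 : log ((n : ℝ) + 1) ≤ 2 * log n := by
      rw [show 2 * log (n : ℝ) = log ((n : ℝ) ^ 2) by rw [log_pow]; norm_num]
      exact log_le_log (by positivity) (by nlinarith)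
    have h2 : log (n : ℝ) ≤ y / (δ / 4) := log_le_rpow_div hn0.le (by positivity)
    have h3 : y / (δ / 4) = 4 / δ * y := by field_simp
    rw [h3] at h2
    rw [add_mul, show 8 / δ * y = 2 * (4 / δ * y) by ring]
    linarith
  have hD : dfe n + 1 ≤ C * y ^ 2 := by
    refine (add_le_add (free_crit hn) (one_le_pow₀ hy1 (n := 2))).trans ?_
    have := pow_le_pow_left₀ (by linarith [log_nonneg (show (1 : ℝ) ≤ n + 1 by linarith)]) hlog 2
    simp only [C]
    rw [mul_pow] at this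
    linarith
  refine (div_le_div_of_nonneg_right hD (by positivity)).trans_eq ?_
  rw [hy, ← rpow_natCast, ← rpow_mul hn0.le, mul_div_assoc, ← rpow_sub hn0]
  norm_num
  left
  ring_nf

/-- The disorders on which the argument fails. -/
def badSet (n J : ℕ) (z : ℝ) : Set (Dis n) :=
  ((⋃ i : Fin n, {d | ¬ (pmat (kmat n 1 d) J *ᵥ Pi.single i 1) ⬝ᵥ (pmat (kmat n 1 d) J *ᵥ Pi.single i 1)
      ≤ 4 * J})
    ∪ {d | log (∑ x, exp (energy n 1 (offd d) x)) ≤ annLogZ n 1 - z}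
    ∪ {d | lin (Quench.diagW n 1) d ≤ -z})
  ∪ {d | exp (-log 4) < ∑ x, mu n 1 (offd d) x
        * (gp (Fin n)).real {g | (kmat n 1 d, sideField ((n : ℝ) ^ 2) x g) ∈ lowSet n J} ∧
      annLogZ n 1 - z < log (∑ x, exp (energy n 1 (offd d) x)) ∧
      -z < lin (Quench.diagW n 1) d}

/-- Outside the bad set the covariance is large. -/
theorem cov_good {z : ℝ} (hJ : 1 ≤ J) (hn : 2 ≤ n) {d : Dis n} (hd : d ∉ badSet n J z)
    (hu : n * exp (1 / 2 - (n : ℝ) ^ 2 / 4) ≤ 1 / 2) {L : ℝ} (hL : Good n 1 (offd d) L) :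
    (J : ℝ) ^ 2 ≤ 256 * L := by
  simp only [badSet, Set.mem_union, Set.mem_iUnion, Set.mem_setOf_eq, not_or, not_exists, not_not,
    not_le] at hd
  obtain ⟨⟨⟨hA, hZ⟩, hD⟩, hW⟩ := hd
  refine cov_large (by omega) hJ (u := (n : ℝ) ^ 2) (by positivity) hu (fun i => not_lt.1 (hA i)) ?_ hL
  have h := not_lt.1 fun h => hW ⟨h, hZ, hD⟩
  refine h.trans_eq ?_
  rw [exp_neg, exp_log (by norm_num), one_div]

theorem evBound_le {z : ℝ} (hJn : J ≤ n) :
    evBound J z ≤ 6 * ((n : ℝ) + 1) ^ 2 * exp (-(z ^ 2 / 2)) := by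
  unfold evBound
  gcongr

/-- The bad set is rare. -/
theorem bad_rare {δ z : ℝ} (hz : z = (n : ℝ) ^ δ) (hJ : 1 ≤ J) (hJn : J ≤ n) (hn : 2 ≤ n)
    (hz24 : 24 ≤ z) (hsmall : 10 ^ 8 * ((J : ℝ) ^ 3 * z ^ 2) ≤ n) (ht : tiny δ n ≤ 1) :
    (disX n).real (badSet n J z) ≤ 3 * tiny δ n + (dfe n + 1) / z := by
  have hn1 : 1 ≤ n := by omega
  have hn0 : (0 : ℝ) < n := by exact_mod_cast hn1
  have hn2 : (2 : ℝ) ≤ n := by exact_mod_cast hn
  have hz1 : 1 ≤ z := by linarith
  have hz2 : 24 * z ≤ z ^ 2 := by rw [pow_two]; exact mul_le_mul_of_nonneg_right hz24 (by linarith)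
  have h4 := small_four hJ hsmall
  have hzn : z ^ 2 / 2 ≤ (n : ℝ) ^ 2 / 4 := by nlinarith
  have htd : tiny δ n = 12 * ((n : ℝ) + 1) ^ 3 * exp (-(z / 8)) := by rw [hz]; rfl
  have hq1 : (1 : ℝ) ≤ (n : ℝ) + 1 := by linarith
  have hplant : evBound J z + n * exp (1 / 2 - (n : ℝ) ^ 2 / 4) ≤ exp (-(z ^ 2 / 8)) := by
    have h1 : n * exp (1 / 2 - (n : ℝ) ^ 2 / 4) ≤ 6 * ((n : ℝ) + 1) ^ 2 * exp (-(z ^ 2 / 2)) := by
      rw [sub_eq_add_neg, exp_add, ← mul_assoc]
      refine mul_le_mul ?_ (exp_le_exp.2 (neg_le_neg hzn)) (exp_pos _).le (by positivity)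
      have he : exp (1 / 2 : ℝ) ≤ 3 :=
        (exp_le_exp.2 (by norm_num : (1 / 2 : ℝ) ≤ 1)).trans exp_one_lt_three.le
      nlinarith
    refine (add_le_add (evBound_le hJn) h1).trans ?_
    have e : exp (-(z ^ 2 / 2)) ≤ exp (-(z / 8)) * exp (-(z ^ 2 / 8)) := by
      rw [← exp_add]; exact exp_le_exp.2 (by linarith)
    have hp : ((n : ℝ) + 1) ^ 2 ≤ ((n : ℝ) + 1) ^ 3 := pow_le_pow_right₀ hq1 (by norm_num)
    calc 6 * ((n : ℝ) + 1) ^ 2 * exp (-(z ^ 2 / 2)) + 6 * ((n : ℝ) + 1) ^ 2 * exp (-(z ^ 2 / 2))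
        = 12 * ((n : ℝ) + 1) ^ 2 * exp (-(z ^ 2 / 2)) := by ring
      _ ≤ 12 * ((n : ℝ) + 1) ^ 3 * (exp (-(z / 8)) * exp (-(z ^ 2 / 8))) := by gcongr
      _ = tiny δ n * exp (-(z ^ 2 / 8)) := by rw [htd]; ring
      _ ≤ exp (-(z ^ 2 / 8)) := mul_le_of_le_one_left (exp_pos _).le ht
  have hexp : ∀ c, 0 ≤ c → c ≤ 12 * ((n : ℝ) + 1) ^ 3 → ∀ x, z / 8 ≤ x → c * exp (-x) ≤ tiny δ n :=
    fun c _ hc x hx => by
      rw [htd]; exact mul_le_mul hc (exp_le_exp.2 (neg_le_neg hx)) (exp_pos _).le (by positivity)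
  have hq2 : (1 : ℝ) ≤ ((n : ℝ) + 1) ^ 3 := one_le_pow₀ hq1
  have hquart : exp (1 / 4 : ℝ) ≤ 3 :=
    (exp_le_exp.2 (by norm_num : (1 / 4 : ℝ) ≤ 1)).trans exp_one_lt_three.le
  unfold badSet
  refine (measureReal_union_le _ _).trans ((add_le_add ((measureReal_union_le _ _).trans
    (add_le_add ((measureReal_union_le _ _).trans (add_le_add ?_ (low_partition hn1 (by linarith)))) ?_))
    ?_).trans_eq (b := tiny δ n + (dfe n + 1) / z + tiny δ n + tiny δ n) rfl |>.trans_eq (by ring))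
  · refine (measureReal_iUnion_fintype_le _).trans ((sum_le_sum fun i _ =>
      (free_event hJ hz1 hsmall (w := Pi.single i 1) (by simp)).trans (evBound_le hJn)).trans ?_)
    rw [sum_const, card_univ, Fintype.card_fin, nsmul_eq_mul, ← mul_assoc]
    refine hexp _ (by positivity) ?_ _ (by linarith)
    linarith [sq_nonneg ((n : ℝ) + 1)]
  · have h := Quench.diag_tail (n := n) 1 (z / n)
    rw [div_mul_cancel₀ _ hn0.ne', one_pow, sub_eq_add_neg, exp_add] at h
    exact h.trans (hexp _ (exp_pos _).le (by linarith) _ (by linarith))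
  · have h := Quench.one_event (n := n) (β := 1) (γ' := log 4 / n) (ε := z / n) (γ := z ^ 2 / 8 / n)
      (u := (n : ℝ) ^ 2) (E := lowSet n J) measurableSet_lowSet gaugeInv_lowSet (by
        rw [div_mul_cancel₀ _ hn0.ne']
        exact (planted_low hJ hn1 hz1 hsmall).trans hplant)
    simp only [sub_mul, mul_assoc, div_mul_cancel₀ _ hn0.ne'] at h
    refine h.trans ?_
    rw [show (1 : ℝ) ^ 2 / 4 - (z ^ 2 / 8 - log 4 - 2 * z) = 1 / 4 + log 4 + -(z ^ 2 / 8 - 2 * z) by ring,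
      exp_add, exp_add, exp_log (by norm_num)]
    exact hexp _ (by positivity) (by linarith) _ (by linarith)

/-- **At the critical temperature the dynamics slows down at least like `n ^ (2 / 3 - ε)`.** -/
theorem slow_two_thirds {ε η : ℝ} (hε : 0 < ε) (hη : 0 < η) : ∀ᶠ n : ℕ in atTop,
    ENNReal.ofReal (1 - η) ≤ disorder n {g | gap n 1 g ≤ (n : ℝ) ^ (-((2 : ℝ) / 3 - ε)) ∧
      ∀ t, 0 ≤ t → MixedBy n 1 g t → (n : ℝ) ^ ((2 : ℝ) / 3 - ε) ≤ t} := by
  obtain ⟨δ, hδ0, hδε, hδ12⟩ : ∃ δ : ℝ, 0 < δ ∧ 4 * δ ≤ ε ∧ 12 * δ ≤ 1 :=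
    ⟨min ε (1 / 3) / 4, by positivity, by linarith [min_le_left ε (1 / 3)],
      by linarith [min_le_right ε (1 / 3)]⟩
  have cast := tendsto_natCast_atTop_atTop (R := ℝ)
  filter_upwards [eventually_ge_atTop 8,
    (tendsto_tiny hδ0).eventually (ge_mem_nhds (show (0 : ℝ) < min 1 (η / 4) by positivity)),
    (tendsto_deficit hδ0).eventually (ge_mem_nhds (show (0 : ℝ) < η / 4 by positivity)),
    ((tendsto_rpow_atTop hδ0).comp cast).eventually_ge_atTop (10 ^ 8),
    ((tendsto_rpow_atTop (show 0 < (1 : ℝ) / 3 - δ by linarith)).comp cast).eventually_ge_atTop 2,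
    ((tendsto_rpow_atTop (show 0 < (2 : ℝ) / 3 - 2 * δ by linarith)).comp cast).eventually_ge_atTop 4096,
    ((tendsto_rpow_atTop (show 0 < ε / 2 by linarith)).comp cast).eventually_ge_atTop 16384]
    with n hn ht hd hz hy hy2 hx
  simp only [Function.comp_apply] at hz hy hy2 hx
  have hn8 : (8 : ℝ) ≤ n := by exact_mod_cast hn
  have hn0 : (0 : ℝ) < n := by linarith
  set z := (n : ℝ) ^ δ with hzd
  set y := (n : ℝ) ^ ((1 : ℝ) / 3 - δ) with hyd
  set x := (n : ℝ) ^ ((2 : ℝ) / 3 - ε) with hxd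
  set J := ⌊y⌋₊
  have hJy : (J : ℝ) ≤ y := Nat.floor_le (by positivity)
  have hJy' : y / 2 ≤ J := by linarith [Nat.lt_floor_add_one y]
  have hJ : 1 ≤ J := Nat.le_floor (by push_cast; linarith)
  have hJn : J ≤ n := by
    have h : y ≤ (n : ℝ) ^ (1 : ℝ) := rpow_le_rpow_of_exponent_le (by linarith) (by linarith)
    rw [rpow_one] at h
    exact_mod_cast hJy.trans h
  have hsmall : 10 ^ 8 * ((J : ℝ) ^ 3 * z ^ 2) ≤ n := by
    have e : z * (y ^ 3 * z ^ 2) = n := by
      rw [hzd, hyd, ← rpow_natCast _ 3, ← rpow_natCast _ 2, ← rpow_mul hn0.le, ← rpow_mul hn0.le,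
        ← rpow_add hn0, ← rpow_add hn0]
      convert rpow_one (n : ℝ) using 2
      push_cast; ring
    refine le_trans ?_ e.le
    exact mul_le_mul hz (mul_le_mul_of_nonneg_right (pow_le_pow_left₀ (Nat.cast_nonneg J) hJy 3)
      (sq_nonneg z)) (by positivity) (by positivity)
  have hu : n * exp (1 / 2 - (n : ℝ) ^ 2 / 4) ≤ 1 / 2 := by
    rw [show (1 / 2 : ℝ) - (n : ℝ) ^ 2 / 4 = -((n : ℝ) ^ 2 / 4 - 1 / 2) by ring, exp_neg,
      mul_inv_le_iff₀ (exp_pos _)]
    have := add_one_le_exp ((n : ℝ) ^ 2 / 4 - 1 / 2)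
    nlinarith
  have hbad : (disX n).real (badSet n J z) ≤ η := by
    refine (bad_rare (δ := δ) hzd hJ hJn (by omega) (by linarith) hsmall
      (ht.trans (min_le_left _ _))).trans ?_
    linarith [ht.trans (min_le_right (1 : ℝ) (η / 4))]
  set A := {g : Pair n → ℝ | gap n 1 g ≤ (n : ℝ) ^ (-((2 : ℝ) / 3 - ε)) ∧
    ∀ t, 0 ≤ t → MixedBy n 1 g t → x ≤ t}
  have hsub : ∀ d ∉ badSet n J z, offd d ∈ A := fun d hd' => by
    have hno : ∀ K, 0 ≤ K → K ≤ 2 * x → ¬ Poinc n 1 (offd d) K := fun K hK0 hKx hP => by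
      have hx0 : 0 ≤ x := by positivity
      have h := cov_good hJ (by omega) hd' hu
        (good_of_poinc (L := 4 * x + 1) (by omega) (by linarith) (by linarith) hK0 hP)
      have h2 : y ^ 2 / 4 ≤ 256 * (4 * x + 1) := le_trans
        ((div_pow y 2 2).symm.trans_le (le_refl _) |>.trans' (le_of_eq (by norm_num))
          |>.trans (pow_le_pow_left₀ (by positivity) hJy' 2)) h
      have hy2' : y ^ 2 = (n : ℝ) ^ ((2 : ℝ) / 3 - 2 * δ) := by
        rw [hyd, ← rpow_natCast, ← rpow_mul hn0.le]; congr 1; push_cast; ring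
      have h3 : 16384 * x ≤ y ^ 2 := by
        rw [hy2', show (2 : ℝ) / 3 - 2 * δ = (ε - 2 * δ) + ((2 : ℝ) / 3 - ε) by ring, rpow_add hn0, hxd]
        exact mul_le_mul_of_nonneg_right
          (hx.trans (rpow_le_rpow_of_exponent_le (by linarith) (by linarith))) (by positivity)
      linarith [hy2']
    refine ⟨?_, fun t ht0 hm => ?_⟩
    · by_contra hc
      rw [rpow_neg hn0.le, ← one_div] at hc
      exact hno x (by positivity) (by linarith [show 0 ≤ x by positivity])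
        (poinc_of_gap (by positivity) (not_le.1 hc))
    · by_contra hc
      exact hno (2 * t) (by linarith) (by linarith [not_le.1 hc]) (poinc_of_mixed ht0 hm)
  have h1 : (disX n) (offd ⁻¹' A) ≤ disorder n A :=
    (Measure.le_map_apply (mp_offd n).measurable.aemeasurable A).trans_eq (by rw [(mp_offd n).map_eq])
  refine le_trans ?_ h1
  refine ENNReal.ofReal_le_of_le_toReal ?_
  rw [← measureReal_def]
  have h2 := measureReal_mono (μ := disX n) (s₁ := Set.univ) (s₂ := badSet n J z ∪ offd ⁻¹' A)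
    (fun d _ => or_iff_not_imp_left.2 (hsub d)) (measure_ne_top _ _)
  rw [probReal_univ] at h2
  linarith [measureReal_union_le (μ := disX n) (badSet n J z) (offd ⁻¹' A)]

end Vale.Agent.P150.Crit23
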