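import Vale.Agent.P150.Fast.Amp.Inn
import Vale.Agent.P150.Rows

/-!
Tail bounds for innovations (P150): linear forms along adaptively chosen directions, and sums of
squares over blocks of coordinates.
-/

open MeasureTheory ProbabilityTheory Real Finset
open scoped Matrix ENNReal

namespace Vale.Agent.P150.Crit23.Adapt

open Fast Fast.Amp Fast.Dom

variable {n J : ℕ}

/-- The linear form along the chosen directions. -/
def form (e : Sel n) (x : Fin J × Fin n → ℝ) : ℝ :=
  ∑ k : Fin J, selDir e x k ⬝ᵥ fun i => x (k, i)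

theorem measurable_form {e : Sel n} (he : ∀ k, Measurable (e k)) :
    Measurable (form (J := J) e) := by
  refine Finset.measurable_fun_sum _ fun k _ => Finset.measurable_fun_sum _ fun i _ => ?_
  exact ((measurable_pi_apply i).comp ((he k.1).comp (measurable_pi_lambda _ fun c =>
    measurable_pi_lambda _ fun j => measurable_pi_apply _))).mul (measurable_pi_apply _)

theorem form_mgf (t : ℝ) : ∀ (J : ℕ) (e : Sel n) (c : ℕ → ℝ), (∀ k, Measurable (e k)) →
    (∀ k x, e k x ⬝ᵥ e k x ≤ c k) →
    ∫⁻ x, ENNReal.ofReal (exp (t * form e x)) ∂gp (Fin J × Fin n)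
      ≤ ENNReal.ofReal (exp (t ^ 2 / 2 * ∑ k ∈ range J, c k)) := by
  intro J
  induction J with
  | zero => intro e c _ _; simp [form]
  | succ J ih =>
    intro e c he hc
    set e0 := e 0 Fin.elim0
    have hf : ∀ p : (Fin n → ℝ) × (Fin J × Fin n → ℝ), form e (rowJoin p)
        = lin e0 p.1 + form (e.next p.1) p.2 := fun p => by
      obtain ⟨G, x⟩ := p
      simp only [form, Fin.sum_univ_succ, selDir_succ, selDir_zero, rowJoin, Fin.cases_zero,
        Fin.cases_succ, lin, dotProduct, e0]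
      congr 1
      exact sum_congr rfl fun i _ => mul_comm _ _
    have hm : Measurable fun p : (Fin n → ℝ) × (Fin J × Fin n → ℝ) =>
        ENNReal.ofReal (exp (t * form e (rowJoin p))) :=
      (((measurable_form he).comp measurable_rowJoin).const_mul t).exp.ennreal_ofReal
    rw [← (mp_rowJoin (κ := Fin n) (J := J)).lintegral_comp
      (((measurable_form he).const_mul t).exp.ennreal_ofReal), lintegral_prod _ hm.aemeasurable]
    have hin : ∀ G, ∫⁻ x, ENNReal.ofReal (exp (t * form e (rowJoin (G, x)))) ∂gp (Fin J × Fin n)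
        ≤ ENNReal.ofReal (exp (lin (t • e0) G))
          * ENNReal.ofReal (exp (t ^ 2 / 2 * ∑ k ∈ range J, c (k + 1))) := fun G => by
      have h := ih (e.next G) (fun k => c (k + 1))
        (fun k => (he (k + 1)).comp (measurable_cons measurable_const measurable_id))
        fun k x => hc _ _
      refine le_trans (le_of_eq ?_) (mul_le_mul_right h _)
      rw [← lintegral_const_mul' _ _ ENNReal.ofReal_ne_top]
      refine lintegral_congr fun x => ?_
      rw [← ENNReal.ofReal_mul (exp_pos _).le, ← exp_add, hf]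
      congr 2
      simp only [lin, Pi.smul_apply, smul_eq_mul, mul_add, mul_sum]
      congr 1
      exact sum_congr rfl fun i _ => by ring
    refine (lintegral_mono hin).trans ?_
    rw [lintegral_mul_const' _ _ ENNReal.ofReal_ne_top,
      ← ofReal_integral_eq_lintegral_ofReal (mgf_lin (t • e0)).1 (ae_of_all _ fun _ => (exp_pos _).le),
      (mgf_lin (t • e0)).2, ← ENNReal.ofReal_mul (exp_pos _).le, ← exp_add]
    refine ENNReal.ofReal_le_ofReal (exp_le_exp.2 ?_)
    rw [sum_range_succ' c J]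
    have h0 : ∑ i, (t • e0) i ^ 2 = t ^ 2 * (e0 ⬝ᵥ e0) := by
      simp only [dotProduct, mul_sum, Pi.smul_apply, smul_eq_mul]
      exact sum_congr rfl fun i _ => by ring
    have := mul_le_mul_of_nonneg_left (hc 0 Fin.elim0) (sq_nonneg t)
    rw [h0]
    simp only [e0] at *
    linarith

/-- A linear form along chosen directions has sub-Gaussian tails. -/
theorem form_tail {e : Sel n} {c : ℕ → ℝ} (he : ∀ k, Measurable (e k))
    (hc : ∀ k x, e k x ⬝ᵥ e k x ≤ c k) {C z : ℝ} (hC : 0 < C) (hz : 0 ≤ z)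
    (hs : ∑ k ∈ range J, c k ≤ C) :
    (gp (Fin J × Fin n)).real {x : Fin J × Fin n → ℝ | z * √C ≤ |form e x|} ≤ 2 * exp (-(z ^ 2 / 2)) := by
  set μ := gp (Fin J × Fin n)
  have one : ∀ σ : ℝ, σ ^ 2 = 1 → μ.real {x : Fin J × Fin n → ℝ | z * √C ≤ σ * form e x} ≤ exp (-(z ^ 2 / 2)) := fun σ hσ => by
    set t := σ * z / √C with ht
    have hsC := sqrt_pos.2 hC
    have hsub : {x : Fin J × Fin n → ℝ | z * √C ≤ σ * form e x} ⊆
        {x : Fin J × Fin n → ℝ | ENNReal.ofReal (exp (z ^ 2)) ≤ ENNReal.ofReal (exp (t * form e x))} := fun x hx => by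
      simp only [Set.mem_setOf_eq] at hx ⊢
      refine ENNReal.ofReal_le_ofReal (exp_le_exp.2 ?_)
      have := mul_le_mul_of_nonneg_left hx (div_nonneg hz hsC.le)
      refine le_trans (le_of_eq ?_) (this.trans_eq (by rw [ht]; ring))
      field_simp
    have hm := mul_meas_ge_le_lintegral₀ (μ := μ)
      (f := fun x => ENNReal.ofReal (exp (t * form e x)))
      ((((measurable_form he).const_mul t).exp.ennreal_ofReal)).aemeasurable (ENNReal.ofReal (exp (z ^ 2)))
    have h2 := ((mul_le_mul' le_rfl (measure_mono hsub)).trans hm).trans (form_mgf t J e c he hc)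
    have h3 := ENNReal.toReal_mono ENNReal.ofReal_ne_top h2
    rw [ENNReal.toReal_mul, ENNReal.toReal_ofReal (exp_pos _).le, ENNReal.toReal_ofReal (exp_pos _).le,
      ← measureReal_def, mul_comm, ← le_div_iff₀ (exp_pos _), ← exp_sub] at h3
    refine h3.trans (exp_le_exp.2 ?_)
    have h4 : t ^ 2 * ∑ k ∈ range J, c k ≤ z ^ 2 := by
      refine (mul_le_mul_of_nonneg_left hs (sq_nonneg t)).trans_eq ?_
      rw [ht, div_pow, mul_pow, hσ, sq_sqrt hC.le]
      field_simp
    linarith
  have hsub : {x : Fin J × Fin n → ℝ | z * √C ≤ |form e x|}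
      ⊆ {x : Fin J × Fin n → ℝ | z * √C ≤ 1 * form e x} ∪ {x : Fin J × Fin n → ℝ | z * √C ≤ -1 * form e x} := fun x hx => by
    simp only [Set.mem_union, Set.mem_setOf_eq, one_mul, neg_one_mul] at hx ⊢
    exact le_abs.1 hx
  refine (measureReal_mono hsub (measure_ne_top _ _)).trans ((measureReal_union_le _ _).trans ?_)
  linarith [one 1 (by norm_num), one (-1) (by norm_num)]

/-- A block of squares concentrates. -/
theorem sq_tail {ι : Type} [Fintype ι] (s : Finset ι) {z : ℝ} (hz : 0 < z)
    (hzs : 4 * z ^ 2 ≤ (s.card : ℝ)) :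
    (gp ι).real {g | 4 * z * √(s.card : ℝ) ≤ |∑ i ∈ s, (g i ^ 2 - 1)|} ≤ 2 * exp (-(z ^ 2)) := by
  classical
  set N := (s.card : ℝ)
  have hN : 0 < N := lt_of_lt_of_le (by positivity) hzs
  have hsN := sqrt_pos.2 hN
  have hz2 : 2 * z ≤ √N := le_sqrt_of_sq_le (by rw [mul_pow]; linarith)
  have one : ∀ σ : ℝ, σ ^ 2 = 1 →
      (gp ι).real {g | 4 * z * √N ≤ σ * ∑ i ∈ s, (g i ^ 2 - 1)} ≤ exp (-(z ^ 2)) := fun σ hσ => by
    set t := σ * z / (2 * √N) with ht
    have ht2 : t ^ 2 = z ^ 2 / (4 * N) := by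
      rw [ht, div_pow, mul_pow, mul_pow, hσ, sq_sqrt hN.le]; ring
    have htb : |t| ≤ 1 / 4 := by
      refine abs_le_of_sq_le_sq ?_ (by norm_num)
      rw [ht2, div_le_iff₀ (by positivity)]; linarith
    obtain ⟨hlo, hhi⟩ := abs_le.1 htb
    have hi : ∀ i : ι, Integrable (fun x : ℝ => if i ∈ s then exp (t * (x ^ 2 - 1)) else 1)
        (gaussianReal 0 1) := fun i => by
      split_ifs
      · refine ((integral_exp_sq_le (s := t) (by linarith)).1.mul_const (exp (-t))).congr
          (ae_of_all _ fun x => ?_)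
        simp only [← exp_add]; ring_nf
      · exact integrable_const 1
    have hone : ∀ i : ι, ∫ x, (if i ∈ s then exp (t * (x ^ 2 - 1)) else 1) ∂gaussianReal 0 1
        ≤ if i ∈ s then exp (4 * t ^ 2) else 1 := fun i => by
      split_ifs
      · have e : ∀ x : ℝ, exp (t * (x ^ 2 - 1)) = exp (t * x ^ 2) * exp (-t) := fun x => by
          rw [← exp_add]; ring_nf
        simp only [e, integral_mul_const]
        refine (mul_le_mul_of_nonneg_right (integral_exp_sq_le (s := t) (by linarith)).2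
          (exp_pos _).le).trans ?_
        rw [← exp_add]
        refine exp_le_exp.2 ?_
        have h1 : 0 < 1 - 2 * t := by linarith
        have h2 : t / (1 - 2 * t) ≤ t + 4 * t ^ 2 := by
          rw [div_le_iff₀ h1]; nlinarith [sq_nonneg t]
        linarith
      · simp
    have hprod : ∀ g : ι → ℝ, exp (t * ∑ i ∈ s, (g i ^ 2 - 1))
        = ∏ i, if i ∈ s then exp (t * (g i ^ 2 - 1)) else 1 := fun g => by
      rw [mul_sum, exp_sum, prod_ite_mem, univ_inter]
    have hI : Integrable (fun g : ι → ℝ => exp (t * ∑ i ∈ s, (g i ^ 2 - 1))) (gp ι) := by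
      simp only [hprod]
      exact Integrable.fintype_prod
        (f := fun i x => if i ∈ s then exp (t * (x ^ 2 - 1)) else 1) hi
    have hV : ∫ g, exp (t * ∑ i ∈ s, (g i ^ 2 - 1)) ∂gp ι ≤ exp (z ^ 2) := by
      simp only [hprod]
      rw [gp, integral_fintype_prod_eq_prod
        (f := fun i (x : ℝ) => if i ∈ s then exp (t * (x ^ 2 - 1)) else 1)]
      refine (prod_le_prod (fun i _ => integral_nonneg fun x => ?_) fun i _ => hone i).trans_eq ?_
      · split_ifs <;> positivity
      · rw [prod_ite_mem, univ_inter, prod_const, ← exp_nat_mul, ht2]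
        congr 1
        simp only [N] at hN ⊢
        field_simp
    have hm := mul_meas_ge_le_integral_of_nonneg (μ := gp ι) (ae_of_all _ fun g => (exp_pos _).le) hI
      (exp (2 * z ^ 2))
    have hsub : {g : ι → ℝ | 4 * z * √N ≤ σ * ∑ i ∈ s, (g i ^ 2 - 1)}
        ⊆ {g | exp (2 * z ^ 2) ≤ exp (t * ∑ i ∈ s, (g i ^ 2 - 1))} := fun g hg => by
      simp only [Set.mem_setOf_eq] at hg ⊢
      refine exp_le_exp.2 ?_
      have := mul_le_mul_of_nonneg_left hg (show (0 : ℝ) ≤ z / (2 * √N) by positivity)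
      refine le_trans (le_of_eq ?_) (this.trans_eq (by rw [ht]; ring))
      field_simp; ring
    have := ((mul_le_mul_of_nonneg_left (measureReal_mono hsub (measure_ne_top _ _))
      (exp_pos (2 * z ^ 2)).le).trans hm).trans hV
    rw [mul_comm, ← le_div_iff₀ (exp_pos _), ← exp_sub] at this
    exact this.trans (exp_le_exp.2 (by linarith))
  have hsub : {g : ι → ℝ | 4 * z * √N ≤ |∑ i ∈ s, (g i ^ 2 - 1)|}
      ⊆ {g | 4 * z * √N ≤ 1 * ∑ i ∈ s, (g i ^ 2 - 1)}
        ∪ {g | 4 * z * √N ≤ -1 * ∑ i ∈ s, (g i ^ 2 - 1)} := fun g hg => by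
    simp only [Set.mem_union, Set.mem_setOf_eq, one_mul, neg_one_mul] at hg ⊢
    exact le_abs.1 hg
  refine (measureReal_mono hsub (measure_ne_top _ _)).trans ((measureReal_union_le _ _).trans ?_)
  linarith [one 1 (by norm_num), one (-1) (by norm_num)]

end Vale.Agent.P150.Crit23.Adapt
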