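import Vale.Agent.P150.Crit23.Rot
import Vale.Agent.P150.Model

/-!
Annealed second moments at the critical temperature (P150): for uniform configurations
`E exp (S ^ 2 / (2 n)) ≤ n + 1`, hence a lower bound for the upper tail of the partition function,
and a bound for two correlated systems with a coupling of their overlap.
-/

open MeasureTheory Real Finset

namespace Vale.Agent.P150.Crit23

variable {n : ℕ}

theorem ov_mem (x y : Conf n) : ∃ j : ℕ, j ≤ n ∧ ov x y = 2 * (j : ℝ) - n := by
  classical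
  refine ⟨(univ.filter fun i => x i = y i).card, (card_filter_le _ _).trans_eq (by simp), ?_⟩
  have e : ∀ i, spin (x i) * spin (y i) = 2 * (if x i = y i then (1 : ℝ) else 0) - 1 := fun i => by
    cases x i <;> cases y i <;> norm_num [spin]
  simp only [ov, e, sum_sub_distrib, ← mul_sum, sum_boole]
  simp

theorem sum_exp_ov (a : ℝ) (x : Conf n) :
    ∑ y : Conf n, exp (a * ov x y) = (exp a + exp (-a)) ^ n := by
  classical
  have e : ∀ y : Conf n, exp (a * ov x y) = ∏ i, exp (a * (spin (x i) * spin (y i))) := fun y => by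
    rw [← exp_sum, ov, mul_sum]
  simp only [e]
  rw [← Fintype.prod_sum (fun i (b : Bool) => exp (a * (spin (x i) * spin b)))]
  rw [Finset.prod_eq_pow_card (s := univ) (b := exp a + exp (-a)) fun i _ => ?_, card_univ, Fintype.card_fin]
  cases x i <;> simp [spin, add_comm]

/-- The overlap of uniform configurations at the critical point. -/
theorem sum_exp_ov_sq (x : Conf n) :
    ∑ y : Conf n, exp (ov x y ^ 2 / (2 * n)) ≤ 2 ^ n * ((n : ℝ) + 1) := by
  classical
  set k : ℕ → ℝ := fun j => 2 * (j : ℝ) - n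
  have h1 : ∀ y : Conf n, exp (ov x y ^ 2 / (2 * n))
      ≤ ∑ j ∈ range (n + 1), exp (k j / n * ov x y) * exp (-(k j ^ 2 / (2 * n))) := fun y => by
    obtain ⟨j, hj, e⟩ := ov_mem x y
    refine le_trans (le_of_eq ?_) (single_le_sum
      (f := fun j => exp (k j / n * ov x y) * exp (-(k j ^ 2 / (2 * n))))
      (fun i _ => (mul_pos (exp_pos _) (exp_pos _)).le) (mem_range.2 (Nat.lt_succ_of_le hj)))
    simp only [k, ← exp_add, ← e]
    congr 1; ring
  refine (sum_le_sum fun y _ => h1 y).trans ?_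
  rw [sum_comm]
  refine (sum_le_sum (g := fun _ : ℕ => (2 : ℝ) ^ n) fun j hj => ?_).trans_eq (by simp; ring)
  rw [← sum_mul, sum_exp_ov]
  have hc : exp (k j / n) + exp (-(k j / n)) = 2 * cosh (k j / n) := by rw [cosh_eq]; ring
  rw [hc, mul_pow, mul_assoc]
  refine mul_le_of_le_one_right (by positivity) ?_
  refine le_trans (mul_le_mul_of_nonneg_right
    (pow_le_pow_left₀ (cosh_pos _).le (cosh_le_exp_half_sq _) n) (exp_pos _).le) (le_of_eq ?_)
  rw [← exp_nat_mul, ← exp_add, exp_eq_one_iff]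
  rcases n.eq_zero_or_pos with rfl | hn
  · simp
  · have : (n : ℝ) ≠ 0 := by exact_mod_cast hn.ne'
    field_simp; ring

/-- The energies at the critical temperature. -/
noncomputable def cv (n : ℕ) : Conf n → Pair n → ℝ := hv n (1 / √(n : ℝ))

/-- The logarithm of the annealed partition function. -/
noncomputable def ann (n : ℕ) : ℝ := n * log 2 + ((n : ℝ) - 1) / 4

/-- The normalised free energy. -/
noncomputable def fe (n : ℕ) (g : Pair n → ℝ) : ℝ := lse (cv n) g - ann n

theorem energy_one (g : Pair n → ℝ) (x : Conf n) : energy n 1 g x = lin (cv n x) g := by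
  rw [energy_eq, cv]

theorem cv_dot (hn : 1 ≤ n) (x y : Conf n) : ∑ p, cv n x p * cv n y p = (ov x y ^ 2 - n) / (2 * n) := by
  have hn0 : (0 : ℝ) < n := by exact_mod_cast hn
  rw [cv, cov_hv, div_pow, one_pow, sq_sqrt hn0.le]
  field_simp

theorem cv_sq (hn : 1 ≤ n) (x : Conf n) : ∑ p, cv n x p ^ 2 = ((n : ℝ) - 1) / 2 := by
  have hn0 : (0 : ℝ) < n := by exact_mod_cast hn
  simp only [pow_two, cv_dot hn, ov_self]
  field_simp

theorem exp_fe (g : Pair n → ℝ) : exp (fe n g) = (∑ x, exp (lin (cv n x) g)) / exp (ann n) := by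
  rw [fe, exp_sub, lse, exp_log (lse_den_pos _ g)]

theorem exp_ann (n : ℕ) : exp (ann n) = 2 ^ n * exp (((n : ℝ) - 1) / 4) := by
  rw [ann, exp_add, exp_nat_mul, exp_log two_pos]

theorem exp_fe_mean (hn : 1 ≤ n) :
    Integrable (fun g => exp (fe n g)) (gp (Pair n)) ∧ ∫ g, exp (fe n g) ∂gp (Pair n) = 1 := by
  have hi : ∀ x, Integrable (fun g => exp (lin (cv n x) g)) (gp (Pair n)) := fun x => (mgf_lin _).1
  simp only [exp_fe]
  refine ⟨(integrable_finsetSum _ fun x _ => hi x).div_const _, ?_⟩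
  rw [integral_div, integral_finsetSum _ fun x _ => hi x, div_eq_one_iff_eq (exp_pos _).ne', exp_ann]
  simp only [(mgf_lin _).2, cv_sq hn, sum_const, card_univ, nsmul_eq_mul]
  rw [Fintype.card_fun, Fintype.card_bool, Fintype.card_fin]
  push_cast; ring_nf

theorem exp_fe_sq_mean (hn : 1 ≤ n) :
    Integrable (fun g => exp (fe n g) ^ 2) (gp (Pair n)) ∧
      ∫ g, exp (fe n g) ^ 2 ∂gp (Pair n) ≤ (n : ℝ) + 1 := by
  have e : ∀ g, exp (fe n g) ^ 2
      = (∑ x, ∑ y, exp (lin (cv n x + cv n y) g)) / exp (ann n) ^ 2 := fun g => by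
    rw [exp_fe, div_pow, pow_two (∑ x, _), sum_mul_sum]
    congr 1
    refine sum_congr rfl fun x _ => sum_congr rfl fun y _ => ?_
    rw [← exp_add]; congr 1; simp [lin, mul_add, sum_add_distrib]
  have hi : ∀ x y, Integrable (fun g => exp (lin (cv n x + cv n y) g)) (gp (Pair n)) :=
    fun x y => (mgf_lin _).1
  simp only [e]
  refine ⟨(integrable_finsetSum _ fun x _ => integrable_finsetSum _ fun y _ => hi x y).div_const _, ?_⟩
  rw [integral_div, integral_finsetSum _ fun x _ => integrable_finsetSum _ fun y _ => hi x y,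
    div_le_iff₀ (by positivity)]
  have hx : ∀ x, ∫ g, ∑ y, exp (lin (cv n x + cv n y) g) ∂gp (Pair n)
      ≤ exp (((n : ℝ) - 1) / 2) * (2 ^ n * ((n : ℝ) + 1)) := fun x => by
    rw [integral_finsetSum _ fun y _ => hi x y]
    refine le_trans (sum_le_sum fun y _ => ?_)
      (le_trans (le_of_eq (mul_sum _ _ _).symm) (mul_le_mul_of_nonneg_left (sum_exp_ov_sq x) (exp_pos _).le))
    rw [(mgf_lin _).2, ← exp_add, exp_le_exp]
    have hn0 : (0 : ℝ) < n := by exact_mod_cast hn
    simp only [Pi.add_apply, add_sq, sum_add_distrib, mul_assoc, ← mul_sum, cv_sq hn, cv_dot hn]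
    field_simp
    nlinarith
  refine (sum_le_sum fun x _ => hx x).trans_eq ?_
  rw [sum_const, card_univ, nsmul_eq_mul, Fintype.card_fun, Fintype.card_bool, Fintype.card_fin,
    exp_ann, mul_pow, ← exp_nat_mul]
  push_cast; ring_nf

end Vale.Agent.P150.Crit23
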