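import Vale.Agent.P150.Crit23.Lanczos
import Vale.Agent.P150.Crit23.Adapt

/-!
Outside a stretched exponentially small event the Lanczos innovations are typical, hence the size of
the polynomials of the free and of the planted coupling matrix at a fixed vector (P150).
-/

open MeasureTheory ProbabilityTheory Real Finset
open scoped Matrix

namespace Vale.Agent.P150.Crit23.Lanczos

open Fast Fast.Amp Adapt

variable {n J : ℕ} {w : Fin n → ℝ} {z : ℝ}

/-- The bound on the exceptional event. -/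
noncomputable def evBound (J : ℕ) (z : ℝ) : ℝ := 6 * ((J : ℝ) + 1) ^ 2 * exp (-(z ^ 2 / 2))

theorem lin_tail (hJ : 1 ≤ J) (hz : 0 ≤ z) (l : ℕ) (hl : l ≤ J) :
    (gp (Fin J × Fin n)).real {x | z * √J < |∑ k ∈ range l, lanE J w (rows x) k ⬝ᵥ rows x k|}
      ≤ 2 * exp (-(z ^ 2 / 2)) := by
  classical
  set e : Sel n := fun k x => if k < l then lanSel J w k x else 0
  set c : ℕ → ℝ := fun k => if k < l then 1 else 0
  have he : ∀ k, Measurable (e k) := fun k => by
    simp only [e]; split_ifs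
    · exact lanSel_measurable J w k
    · exact measurable_const
  have hc : ∀ k x, e k x ⬝ᵥ e k x ≤ c k := fun k x => by
    simp only [e, c]; split_ifs
    · rcases lanSel_ok J w k x with h | h <;> simp [h]
    · simp
  have hsum : ∑ k ∈ range J, c k ≤ (J : ℝ) := by
    refine (sum_le_sum (g := fun _ => (1 : ℝ)) fun k _ => ?_).trans_eq (by simp)
    simp only [c]; split_ifs <;> norm_num
  refine le_trans (measureReal_mono (fun x hx => ?_) (measure_ne_top _ _))
    (form_tail (J := J) he hc (by exact_mod_cast hJ) hz hsum)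
  simp only [Set.mem_setOf_eq] at hx ⊢
  refine hx.le.trans_eq (congrArg _ ?_)
  have e1 : ∀ k : Fin J, selDir e x k ⬝ᵥ (fun i => x (k, i))
      = if k.1 < l then lanE J w (rows x) k ⬝ᵥ rows x k else 0 := fun k => by
    have h : selDir e x k = if k.1 < l then selDir (lanSel J w) x k else 0 := rfl
    rw [h, selDir_lan, rows_apply]; split_ifs <;> simp
  rw [form, sum_congr rfl fun k _ => e1 k,
    Fin.sum_univ_eq_sum_range (fun k => if k < l then lanE J w (rows x) k ⬝ᵥ rows x k else 0),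
    ← sum_filter]
  refine sum_congr ?_ fun _ _ => rfl
  ext k; simp; omega

theorem pair_tail (hz : 0 ≤ z) {c k : ℕ} (hck : c ≤ k) (hk : k < J) :
    (gp (Fin J × Fin n)).real {x | z < |lanE J w (rows x) c ⬝ᵥ rows x k|} ≤ 2 * exp (-(z ^ 2 / 2)) := by
  classical
  set e : Sel n := fun k' x => if k' = k then lanE J w (extSeq x) c else 0
  set cc : ℕ → ℝ := fun k' => if k' = k then 1 else 0
  have he : ∀ k, Measurable (e k) := fun k' => by
    simp only [e]; split_ifs
    · refine measurable_dirs (W := fun x : Fin k' → Fin n → ℝ => lanW w (extSeq x)) (fun i => ?_) c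
      cases i with
      | zero => exact measurable_const
      | succ i => simp only [lanW, extSeq]; split <;> fun_prop
    · exact measurable_const
  have hc : ∀ k x, e k x ⬝ᵥ e k x ≤ cc k := fun k' x => by
    simp only [e, cc]; split_ifs
    · rcases dirs_ok (M := J + 1) one_pos (lanW w (extSeq x)) c with h | h <;> simp [lanE, h]
    · simp
  refine le_trans (measureReal_mono (fun x hx => ?_) (measure_ne_top _ _))
    (form_tail (J := J) (C := 1) he hc one_pos hz (by simp [cc, hk]))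
  simp only [Set.mem_setOf_eq] at hx ⊢
  rw [sqrt_one, mul_one]
  refine hx.le.trans_eq (congrArg _ ?_)
  rw [form, Finset.sum_eq_single ⟨k, hk⟩]
  · have h : selDir e x ⟨k, hk⟩ = lanE J w (rows x) c := by
      simp only [selDir, e, if_pos]
      refine dirs_congr fun i hi => ?_
      cases i with
      | zero => rfl
      | succ i =>
        have : i < k := lt_of_lt_of_le hi hck
        simp [lanW, extSeq, rows, this, this.trans hk]
    rw [h, ← rows_apply]
  · intro b _ hb
    have : b.1 ≠ k := fun h => hb (Fin.ext h)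
    have h : selDir e x b = 0 := by simp [selDir, e, this]
    rw [h, zero_dotProduct]
  · simp

theorem block_tail (hz : 1 ≤ z) (hn : 4 * z ^ 2 ≤ (n : ℝ)) (s : Finset (Fin J)) (hs : s.Nonempty) :
    (gp (Fin J × Fin n)).real {x | 4 * z * √((s.card : ℝ) * n) < |∑ k ∈ s, (rows x k ⬝ᵥ rows x k - n)|}
      ≤ 2 * exp (-(z ^ 2 / 2)) := by
  have hcard : ((s ×ˢ (univ : Finset (Fin n))).card : ℝ) = s.card * n := by simp
  have h1 : (1 : ℝ) ≤ s.card := by exact_mod_cast hs.card_pos
  have h := sq_tail (s ×ˢ (univ : Finset (Fin n))) (z := z) (by linarith) (by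
    rw [hcard]; exact hn.trans (le_mul_of_one_le_left (Nat.cast_nonneg n) h1))
  rw [hcard] at h
  refine le_trans (le_trans (measureReal_mono (fun x hx => ?_) (measure_ne_top _ _)) h) ?_
  · simp only [Set.mem_setOf_eq] at hx ⊢
    refine hx.le.trans_eq (congrArg _ ?_)
    rw [sum_product]
    refine sum_congr rfl fun k _ => ?_
    rw [rows_apply, sum_sub_distrib, dotProduct]
    simp [pow_two]
  · refine mul_le_mul_of_nonneg_left (exp_le_exp.2 (neg_le_neg ?_)) two_pos.le
    linarith [sq_nonneg z]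

/-- **The innovations are typical.** -/
theorem nice_prob (hJ : 1 ≤ J) (hz : 1 ≤ z) (hn : 4 * z ^ 2 ≤ (n : ℝ)) :
    (gp (Fin J × Fin n)).real {x | ¬ Nice J z w (rows x)} ≤ evBound J z := by
  classical
  set μ := gp (Fin J × Fin n)
  have hz0 : 0 ≤ z := zero_le_one.trans hz
  set A := fun l : Fin (J + 1) =>
    {x : Fin J × Fin n → ℝ | z * √J < |∑ k ∈ range l, lanE J w (rows x) k ⬝ᵥ rows x k|}
  set B := fun k : Fin J => {x : Fin J × Fin n → ℝ |
    4 * z * √(((({k} : Finset (Fin J))).card : ℝ) * n) < |∑ l ∈ ({k} : Finset (Fin J)), (rows x l ⬝ᵥ rows x l - n)|}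
  set C := fun k : Fin J => {x : Fin J × Fin n → ℝ |
    4 * z * √(((Finset.Iic k).card : ℝ) * n) < |∑ l ∈ Finset.Iic k, (rows x l ⬝ᵥ rows x l - n)|}
  set P := fun q : Fin J × Fin J => {x : Fin J × Fin n → ℝ |
    q.1.1 ≤ q.2.1 ∧ z < |lanE J w (rows x) q.1 ⬝ᵥ rows x q.2|}
  have hsub : {x | ¬ Nice J z w (rows x)} ⊆ ((⋃ l, A l) ∪ (⋃ k, B k)) ∪ ((⋃ k, C k) ∪ ⋃ q, P q) := by
    intro x hx
    by_contra hc
    simp only [Set.mem_union, Set.mem_iUnion, not_or, not_exists] at hc
    obtain ⟨⟨hA, hB⟩, hC, hP⟩ := hc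
    refine hx ⟨fun l hl => not_lt.1 (hA ⟨l, by omega⟩), fun k hk => ?_, fun l hl => ?_, fun k hk => ?_⟩
    · simpa [B] using hB ⟨k, hk⟩
    · cases l with
      | zero => simp only [range_zero, sum_empty, abs_zero]; positivity
      | succ l =>
        have h := not_lt.1 (Set.notMem_setOf_iff.1 (hC ⟨l, hl⟩))
        have e : ∑ i ∈ Finset.Iic (⟨l, hl⟩ : Fin J), (rows x i ⬝ᵥ rows x i - n)
            = ∑ k ∈ range (l + 1), (rows x k ⬝ᵥ rows x k - n) :=
          sum_bij (fun c _ => c.1) (fun c hc => mem_range.2 (Nat.lt_succ_of_le (Fin.le_def.1 (mem_Iic.1 hc))))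
            (fun _ _ _ _ h => Fin.ext h) (fun b hb => ⟨⟨b, (Nat.lt_of_lt_of_le (mem_range.1 hb) hl)⟩,
              mem_Iic.2 (Fin.le_def.2 (Nat.le_of_lt_succ (mem_range.1 hb))), rfl⟩) fun _ _ => rfl
        rw [e] at h
        refine h.trans (mul_le_mul_of_nonneg_left (sqrt_le_sqrt
          (mul_le_mul_of_nonneg_right ?_ (Nat.cast_nonneg n))) (by positivity))
        rw [Fin.card_Iic]; exact_mod_cast hl
    · have h : ∀ c ∈ range (k + 1), (lanE J w (rows x) c ⬝ᵥ rows x k) ^ 2 ≤ z ^ 2 := fun c hc => by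
        have hck : c ≤ k := Nat.le_of_lt_succ (mem_range.1 hc)
        have h' : ¬ (c ≤ k ∧ z < |lanE J w (rows x) c ⬝ᵥ rows x k|) :=
          hP (⟨c, hck.trans_lt hk⟩, ⟨k, hk⟩)
        rw [← sq_abs]
        exact pow_le_pow_left₀ (abs_nonneg _) (not_lt.1 fun h => h' ⟨hck, h⟩) 2
      refine (sum_le_sum h).trans ?_
      rw [sum_const, card_range, nsmul_eq_mul]
      exact mul_le_mul_of_nonneg_right (Nat.cast_le.2 (by omega)) (sq_nonneg z)
  set u := 2 * exp (-(z ^ 2 / 2))
  have hu : 0 ≤ u := by positivity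
  have hA : μ.real (⋃ l, A l) ≤ ((J : ℝ) + 1) * u := by
    refine (measureReal_iUnion_fintype_le _).trans
      ((sum_le_sum fun l _ => lin_tail hJ hz0 l.1 (Nat.le_of_lt_succ l.2)).trans_eq ?_)
    simp [u]
  have hB : μ.real (⋃ k, B k) ≤ (J : ℝ) * u := by
    refine (measureReal_iUnion_fintype_le _).trans
      ((sum_le_sum fun k _ => block_tail hz hn {k} (singleton_nonempty k)).trans_eq ?_)
    simp [u]
  have hC : μ.real (⋃ k, C k) ≤ (J : ℝ) * u := by
    refine (measureReal_iUnion_fintype_le _).trans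
      ((sum_le_sum fun k _ => block_tail hz hn (Finset.Iic k) ⟨k, mem_Iic.2 le_rfl⟩).trans_eq ?_)
    simp [u]
  have hP : μ.real (⋃ q, P q) ≤ (J : ℝ) ^ 2 * u := by
    refine (measureReal_iUnion_fintype_le _).trans
      ((sum_le_sum (g := fun _ => u) fun q _ => ?_).trans_eq (by simp [pow_two]))
    rcases le_or_gt q.1.1 q.2.1 with h | h
    · exact (measureReal_mono (fun x hx => hx.2) (measure_ne_top _ _)).trans (pair_tail hz0 h q.2.2)
    · have : P q = ∅ := Set.eq_empty_iff_forall_notMem.2 fun x hx => absurd hx.1 (not_le.2 h)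
      rw [this, measureReal_empty]; exact hu
  refine (measureReal_mono hsub (measure_ne_top _ _)).trans ((measureReal_union_le _ _).trans
    ((add_le_add ((measureReal_union_le _ _).trans (add_le_add hA hB))
      ((measureReal_union_le _ _).trans (add_le_add hC hP))).trans ?_))
  rw [evBound, show 6 * ((J : ℝ) + 1) ^ 2 * exp (-(z ^ 2 / 2)) = 3 * ((J : ℝ) + 1) ^ 2 * u by
    simp only [u]; ring]
  have : (0 : ℝ) ≤ J := Nat.cast_nonneg J
  nlinarith

/-- From innovations to disorders. -/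
theorem inn_transfer {P : Dis n → Prop} (hJ : 1 ≤ J) (hz : 1 ≤ z) (hn : 4 * z ^ 2 ≤ (n : ℝ))
    (h : ∀ d D, Nice J z w (rows (inn J (lanSel J w) d D)) → P d) :
    (disX n).real {d | ¬ P d} ≤ evBound J z := by
  refine le_trans ?_ (nice_prob (w := w) hJ hz hn)
  set ν := gp (Fin J × (Pair n ⊕ Fin n))
  have hmp := mp_inn J (lanSel J w) (lanSel_ok J w) (lanSel_measurable J w)
  have h1 : ((disX n).prod ν) ({d | ¬ P d} ×ˢ Set.univ)
      ≤ gp (Fin J × Fin n) {x | ¬ Nice J z w (rows x)} := by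
    conv_rhs => rw [← hmp.map_eq]
    refine le_trans (measure_mono fun p hp => ?_) (Measure.le_map_apply hmp.measurable.aemeasurable _)
    exact fun hc => hp.1 (h p.1 p.2 hc)
  rw [Measure.prod_prod, measure_univ, mul_one] at h1
  exact ENNReal.toReal_mono (measure_ne_top _ _) h1

theorem small_four (hJ : 1 ≤ J) (h : 10 ^ 8 * ((J : ℝ) ^ 3 * z ^ 2) ≤ n) : 4 * z ^ 2 ≤ (n : ℝ) := by
  have hJ1 : (1 : ℝ) ≤ (J : ℝ) ^ 3 := one_le_pow₀ (by exact_mod_cast hJ)
  nlinarith [mul_le_mul_of_nonneg_right hJ1 (sq_nonneg z)]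

/-- The polynomial of the free matrix at a fixed vector. -/
theorem free_event (hJ : 1 ≤ J) (hz : 1 ≤ z) (hsmall : 10 ^ 8 * ((J : ℝ) ^ 3 * z ^ 2) ≤ n)
    (hw : w ⬝ᵥ w = 1) : (disX n).real
      {d | ¬ (pmat (kmat n 1 d) J *ᵥ w) ⬝ᵥ (pmat (kmat n 1 d) J *ᵥ w) ≤ 4 * J} ≤ evBound J z := by
  refine inn_transfer (w := w) hJ hz (small_four hJ hsmall) fun d D hN => ?_
  obtain ⟨hr, ha, hb, hS⟩ := nice_jacobi hJ hz hsmall hN
  have h := pmat_sq (D := D) 0 hw rfl hr
  rw [kmatW, zero_smul, add_zero] at h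
  rw [h]
  exact Wave.norm_le ha hb hS _

/-- The polynomial of the planted matrix at the planted vector. -/
theorem planted_event (hJ : 1 ≤ J) (hz : 1 ≤ z) (hsmall : 10 ^ 8 * ((J : ℝ) ^ 3 * z ^ 2) ≤ n)
    (hw : w ⬝ᵥ w = 1) : (disX n).real
      {d | ¬ (J : ℝ) ^ 3 / 32 ≤ (pmat (kmatW 1 d w) J *ᵥ w) ⬝ᵥ (pmat (kmatW 1 d w) J *ᵥ w)}
        ≤ evBound J z := by
  refine inn_transfer (w := w) hJ hz (small_four hJ hsmall) fun d D hN => ?_
  obtain ⟨hr, ha, hb, hS⟩ := nice_jacobi hJ hz hsmall hN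
  rw [pmat_sq (D := D) 1 hw rfl hr]
  exact Wave.norm_ge ha hb hS J.lt_succ_self

end Vale.Agent.P150.Crit23.Lanczos
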