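import Vale.Agent.P150.Crit23.Annealed

/-!
The free energy at the critical temperature (P150): `E log Z = n log 2 + (n - 1) / 4 - O(log n ^ 2)`.
The mean `Ψ (θ) = E (-X (g) exp (s X (g_θ)))`, `X = log (Z / E Z)`, hardly moves with the angle
between the copies, as the derivative is the squared overlap of the two systems, which is controlled
by the annealed two-system bound and by `Ψ` itself.
-/

open MeasureTheory ProbabilityTheory Real Finset Filter Topology

namespace Vale.Agent.P150.Crit23

variable {n : ℕ}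

/-- The gradient of the free energy. -/
noncomputable def gm (n : ℕ) (i : Pair n) (g : Pair n → ℝ) : ℝ := ∑ x, soft (cv n) g x * cv n x i

/-- The tilt. -/
noncomputable def tw (n : ℕ) (s : ℝ) (g : Pair n → ℝ) : ℝ := exp (s * fe n g)

/-- Its gradient. -/
noncomputable def tw₁ (n : ℕ) (s : ℝ) (i : Pair n) (g : Pair n → ℝ) : ℝ := s * gm n i g * tw n s g

/-- The diagonal of its second derivative. -/
noncomputable def tw₂ (n : ℕ) (s : ℝ) (i : Pair n) (g : Pair n → ℝ) : ℝ :=
  (s * (∑ x, soft (cv n) g x * (cv n x i - gm n i g) * cv n x i) + (s * gm n i g) ^ 2) * tw n s g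

theorem continuous_fe (n : ℕ) : Continuous (fe n) := (continuous_lse _).sub continuous_const

theorem continuous_gm (n : ℕ) (i : Pair n) : Continuous (gm n i) :=
  continuous_finsetSum _ fun x _ => (continuous_soft (cv n) x).mul continuous_const

theorem abs_gm_le (i : Pair n) (g : Pair n → ℝ) : |gm n i g| ≤ ∑ x, |cv n x i| := by
  refine (abs_sum_le_sum_abs _ _).trans (sum_le_sum fun x _ => ?_)
  rw [abs_mul, abs_of_nonneg (soft_nonneg _ _ _)]
  exact mul_le_of_le_one_left (abs_nonneg _) (soft_le_one _ _ _)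

theorem abs_fe_le (n : ℕ) : ∃ c B : ℝ, 0 ≤ c ∧ 0 ≤ B ∧ ∀ g, |fe n g| ≤ c + B * l1 g := by
  refine ⟨|log (Fintype.card (Conf n))| + |ann n|, ∑ x, ∑ i, |cv n x i|, by positivity, by positivity,
    fun g => ?_⟩
  have h1 := abs_lse_le (cv n) g
  have h2 : ∑ x, |lin (cv n x) g| ≤ (∑ x, ∑ i, |cv n x i|) * l1 g := by
    rw [sum_mul]; exact sum_le_sum fun x _ => abs_lin_le _ _
  have h3 := abs_sub (lse (cv n) g) (ann n)
  have h4 := le_abs_self (log (Fintype.card (Conf n) : ℝ))
  rw [fe]
  linarith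

theorem growth_tw (n : ℕ) (s : ℝ) : Growth (tw n s) := by
  obtain ⟨c, B, hc, hB, hb⟩ := abs_fe_le n
  refine ⟨continuous_exp.comp (continuous_const.mul (continuous_fe n)), exp (|s| * c), |s| * B,
    (exp_pos _).le, by positivity, fun g => ?_⟩
  rw [tw, abs_of_pos (exp_pos _), ← exp_add, exp_le_exp]
  refine (le_abs_self _).trans ?_
  rw [abs_mul]
  exact (mul_le_mul_of_nonneg_left (hb g) (abs_nonneg s)).trans_eq (by ring)

theorem growth_fe (n : ℕ) : Growth (fe n) := by
  obtain ⟨c, B, hc, hB, hb⟩ := abs_fe_le n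
  refine ⟨continuous_fe n, c + B, 1, add_nonneg hc hB, zero_le_one, fun g => ?_⟩
  have h0 : 0 ≤ l1 g := sum_nonneg fun i _ => abs_nonneg _
  refine (hb g).trans ?_
  rw [one_mul, add_mul]
  exact add_le_add (le_mul_of_one_le_right hc (one_le_exp h0))
    (mul_le_mul_of_nonneg_left (by linarith [add_one_le_exp (l1 g)]) hB)

theorem growth_gm (n : ℕ) (i : Pair n) : Growth (gm n i) :=
  ⟨continuous_gm n i, ∑ x, |cv n x i|, 0, by positivity, le_rfl, fun g => by simpa using abs_gm_le i g⟩

theorem growth_tw₁ (n : ℕ) (s : ℝ) (i : Pair n) : Growth (tw₁ n s i) :=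
  ((growth_const s).mul (growth_gm n i)).mul (growth_tw n s)

theorem growth_tw₂ (n : ℕ) (s : ℝ) (i : Pair n) : Growth (tw₂ n s i) := by
  have gs : ∀ x, Growth fun g => soft (cv n) g x := fun x =>
    ⟨continuous_soft _ x, 1, 0, zero_le_one, le_rfl, fun g => by
      simpa [abs_of_nonneg (soft_nonneg (cv n) g x)] using soft_le_one (cv n) g x⟩
  have h1 : Growth fun g => ∑ x, soft (cv n) g x * (cv n x i + -gm n i g) * cv n x i :=
    growth_sum univ fun x _ => ((gs x).mul ((growth_const _).add (growth_gm n i).neg)).mul (growth_const _)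
  have h2 : Growth fun g => s * gm n i g := (growth_const s).mul (growth_gm n i)
  have h := (((growth_const s).mul h1).add (h2.mul h2)).mul (growth_tw n s)
  convert h using 1
  funext g
  rw [tw₂, pow_two]
  simp only [sub_eq_add_neg]

theorem diff_fe (n : ℕ) : Diff (fe n) (gm n) := fun i g => by
  have hl : ∀ s, HasDerivAt (fun x => exp (lin (cv n s) (Function.update g i x)))
      (exp (lin (cv n s) g) * cv n s i) (g i) := fun s => by
    have h : HasDerivAt (fun x => lin (cv n s) (Function.update g i x)) (cv n s i) (g i) := by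
      simp only [lin_update]
      simpa using ((hasDerivAt_id (g i)).mul_const (cv n s i)).add_const
        (∑ j ∈ univ.erase i, g j * cv n s j)
    simpa [Function.update_eq_self] using h.exp
  have h := (((HasDerivAt.fun_sum (u := univ) fun s _ => hl s).log
    (by simpa using (lse_den_pos (cv n) g).ne')).sub_const (ann n))
  refine h.congr_deriv ?_
  simp only [Function.update_eq_self, gm, soft, sum_div]
  exact sum_congr rfl fun s _ => by ring

theorem diff_tw₁ (n : ℕ) (s : ℝ) (i : Pair n) (g : Pair n → ℝ) :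
    HasDerivAt (fun t => tw₁ n s i (Function.update g i t)) (tw₂ n s i g) (g i) := by
  have hm : HasDerivAt (fun t => gm n i (Function.update g i t))
      (∑ x, soft (cv n) g x * (cv n x i - gm n i g) * cv n x i) (g i) :=
    HasDerivAt.fun_sum fun x _ => (hasDeriv_soft_update (cv n) g i x).mul_const (cv n x i)
  have h : HasDerivAt (fun t => s * gm n i (Function.update g i t) * tw n s (Function.update g i t))
      _ (g i) := (hm.const_mul s).mul (((diff_fe n i g).const_mul s).exp)
  refine h.congr_deriv ?_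
  simp only [Function.update_eq_self, tw₂, tw]
  ring

theorem deriv_tw_rot (n : ℕ) (s θ : ℝ) (p : Pair n ⊕ Pair n → ℝ) :
    HasDerivAt (fun r => tw n s (rot r p))
      (∑ i, tw₁ n s i (rot θ p) * (-sin θ * p (Sum.inl i) + cos θ * p (Sum.inr i))) θ := by
  have hl : ∀ x, HasDerivAt (fun r => lin (cv n x) (rot r p))
      (∑ i, (-sin θ * p (Sum.inl i) + cos θ * p (Sum.inr i)) * cv n x i) θ := fun x =>
    HasDerivAt.fun_sum fun i _ => (((hasDerivAt_cos θ).mul_const (p (Sum.inl i))).add
      ((hasDerivAt_sin θ).mul_const (p (Sum.inr i)))).mul_const (cv n x i)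
  have h := ((((HasDerivAt.fun_sum (u := univ) fun x _ => (hl x).exp).log
    (lse_den_pos (cv n) (rot θ p)).ne').sub_const (ann n)).const_mul s).exp
  refine h.congr_deriv ?_
  show tw n s (rot θ p) * (s * _) = _
  simp only [tw₁, gm, soft, sum_div, mul_sum, sum_mul]
  rw [sum_comm]
  exact sum_congr rfl fun i _ => sum_congr rfl fun x _ => by ring

/-- The mean of the free energy against the tilt of the rotated copy. -/
noncomputable def Gf (n : ℕ) (s θ : ℝ) : ℝ :=
  ∫ p, -fe n (cg p) * tw n s (rot θ p) ∂gp (Pair n ⊕ Pair n)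

/-- Minus the mean free energy. -/
noncomputable def dfe (n : ℕ) : ℝ := -∫ g, fe n g ∂gp (Pair n)

/-- The mass of the tilt. -/
noncomputable def mass (n : ℕ) (s : ℝ) : ℝ := ∫ g, tw n s g ∂gp (Pair n)

theorem mass_ge (n : ℕ) (s : ℝ) : exp (-(s * dfe n)) ≤ mass n s := by
  have hI := (growth_tw n s).integrable
  have hx := (growth_fe n).integrable.const_mul s
  set m := -(s * dfe n)
  have hi2 : Integrable (fun g => (s * fe n g - m + 1) * exp m) (gp (Pair n)) :=
    ((hx.sub (integrable_const m)).add (integrable_const 1)).mul_const _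
  refine le_trans (le_of_eq ?_) (integral_mono hi2 hI fun g => ?_)
  · rw [integral_mul_const, integral_add (hx.sub' (integrable_const m)) (integrable_const 1),
      integral_sub hx (integrable_const m), integral_const_mul]
    simp [m, dfe]
  · have := mul_le_mul_of_nonneg_right (add_one_le_exp (s * fe n g - m)) (exp_pos m).le
    rw [← exp_add, sub_add_cancel] at this
    exact this

theorem mass_pos (n : ℕ) (s : ℝ) : 0 < mass n s := lt_of_lt_of_le (exp_pos _) (mass_ge n s)

theorem Gf_zero (n : ℕ) (s : ℝ) : Gf n s 0 = -∫ g, fe n g * tw n s g ∂gp (Pair n) := by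
  have e : ∀ p : Pair n ⊕ Pair n → ℝ, cg p = rot 0 p := fun p => by funext i; simp [cg, rot]
  simp only [Gf, e, neg_mul]
  rw [integral_neg, integral_rot ((growth_fe n).mul (growth_tw n s))]

theorem Gf_pi (n : ℕ) (s : ℝ) : Gf n s (π / 2) = dfe n * mass n s := by
  rw [Gf, integral_indep (fun g => -fe n g) (tw n s), integral_neg]; rfl

theorem hasDeriv_Gf (n : ℕ) (s θ : ℝ) : HasDerivAt (Gf n s)
    (-sin θ * ∫ p, ∑ i, -gm n i (cg p) * tw₁ n s i (rot θ p) ∂gp (Pair n ⊕ Pair n)) θ :=
  rot_deriv (growth_fe n).neg (growth_tw n s) (fun i => (growth_gm n i).neg) (growth_tw₁ n s)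
    (growth_tw₂ n s) (fun i g => (diff_fe n i g).neg) (diff_tw₁ n s) (deriv_tw_rot n s) θ

/-- The normalised partition function of two correlated systems with coupled overlap. -/
noncomputable def two (n : ℕ) (θ : ℝ) (p : Pair n ⊕ Pair n → ℝ) : ℝ :=
  (∑ x, ∑ y, exp (lin (cv n x) (cg p) + lin (cv n y) (rot θ p) + (1 - cos θ) * ov x y ^ 2 / (2 * n)))
    / exp (ann n) ^ 2

theorem two_pos (n : ℕ) (θ : ℝ) (p : Pair n ⊕ Pair n → ℝ) : 0 < two n θ p :=
  div_pos (sum_pos (fun _ _ => sum_pos (fun _ _ => exp_pos _) univ_nonempty) univ_nonempty)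
    (pow_pos (exp_pos _) 2)

theorem growth_two (n : ℕ) (θ : ℝ) : Growth (two n θ) := by
  have gl : ∀ x, Growth fun g : Pair n → ℝ => exp (lin (cv n x) g) := fun x =>
    ⟨continuous_exp.comp (continuous_lin _), 1, ∑ i, |cv n x i|, zero_le_one, by positivity, fun g => by
      rw [one_mul, abs_of_pos (exp_pos _), exp_le_exp]
      exact (le_abs_self _).trans (abs_lin_le _ _)⟩
  unfold two
  simp only [exp_add, div_eq_mul_inv (b := exp (ann n) ^ 2)]
  exact (growth_sum univ fun x _ => growth_sum univ fun y _ =>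
    (((gl x).comp_cg).mul ((gl y).comp_rot θ)).mul (growth_const _)).mul (growth_const _)

theorem two_mean (hn : 1 ≤ n) {θ : ℝ} (hθ : 0 ≤ cos θ) :
    ∫ p, two n θ p ∂gp (Pair n ⊕ Pair n) ≤ (n : ℝ) + 1 := by
  have hn0 : (0 : ℝ) < n := by exact_mod_cast hn
  set u : Conf n → Conf n → Pair n ⊕ Pair n → ℝ := fun x y =>
    Sum.elim (fun i => cv n x i + cos θ * cv n y i) (fun i => sin θ * cv n y i)
  have e : ∀ x y p, lin (cv n x) (cg p) + lin (cv n y) (rot θ p) = lin (u x y) p := fun x y p => by
    simp only [lin, Fintype.sum_sum_type, u, Sum.elim_inl, Sum.elim_inr, cg, rot, ← sum_add_distrib]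
    exact sum_congr rfl fun i _ => by ring
  have hi : ∀ x y, Integrable (fun p => exp (lin (u x y) p + (1 - cos θ) * ov x y ^ 2 / (2 * n)))
      (gp (Pair n ⊕ Pair n)) := fun x y => by
    simp only [exp_add]; exact (mgf_lin _).1.mul_const _
  simp only [two, e]
  rw [integral_div, integral_finsetSum _ fun x _ => integrable_finsetSum _ fun y _ => hi x y,
    div_le_iff₀ (by positivity)]
  have hx : ∀ x, ∫ p, ∑ y, exp (lin (u x y) p + (1 - cos θ) * ov x y ^ 2 / (2 * n)) ∂gp (Pair n ⊕ Pair n)
      ≤ exp (((n : ℝ) - 1) / 2) * (2 ^ n * ((n : ℝ) + 1)) := fun x => by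
    rw [integral_finsetSum _ fun y _ => hi x y]
    refine le_trans (sum_le_sum fun y _ => ?_)
      (le_trans (le_of_eq (mul_sum _ _ _).symm) (mul_le_mul_of_nonneg_left (sum_exp_ov_sq x) (exp_pos _).le))
    simp only [exp_add]
    rw [integral_mul_const, (mgf_lin _).2, ← exp_add, ← exp_add, exp_le_exp]
    have hsq : ∑ i, u x y i ^ 2 = ((n : ℝ) - 1) + 2 * cos θ * ((ov x y ^ 2 - n) / (2 * n)) := by
      rw [Fintype.sum_sum_type]
      simp only [u, Sum.elim_inl, Sum.elim_inr, add_sq, mul_pow, sum_add_distrib, cv_sq hn, ← mul_sum]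
      rw [show ∑ i, 2 * cv n x i * (cos θ * cv n y i) = 2 * cos θ * ((ov x y ^ 2 - n) / (2 * n)) by
        rw [← cv_dot hn, mul_sum]; exact sum_congr rfl fun i _ => by ring]
      linear_combination (((n : ℝ) - 1) / 2) * sin_sq_add_cos_sq θ
    rw [hsq]
    have e2 : ((n : ℝ) - 1 + 2 * cos θ * ((ov x y ^ 2 - n) / (2 * n))) / 2
        + (1 - cos θ) * ov x y ^ 2 / (2 * n)
        = ((n : ℝ) - 1) / 2 + ov x y ^ 2 / (2 * n) - cos θ / 2 := by field_simp; ring
    rw [e2]; linarith
  refine (sum_le_sum fun x _ => hx x).trans_eq ?_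
  rw [sum_const, card_univ, nsmul_eq_mul, Fintype.card_fun, Fintype.card_bool, Fintype.card_fin,
    exp_ann, mul_pow, ← exp_nat_mul]
  push_cast; ring_nf

theorem grad_dot_le (hn : 1 ≤ n) {θ : ℝ} (h0 : 0 ≤ cos θ) (p : Pair n ⊕ Pair n → ℝ) :
    (1 - cos θ + 1 / n) * |∑ i, gm n i (cg p) * gm n i (rot θ p)|
      ≤ log (two n θ p) - fe n (cg p) - fe n (rot θ p) + 2 := by
  have hn0 : (0 : ℝ) < n := by exact_mod_cast hn
  have hn1 : (1 : ℝ) ≤ n := by exact_mod_cast hn
  set g := cg p
  set g' := rot θ p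
  set η := 1 - cos θ
  have hη0 : 0 ≤ η := sub_nonneg.2 (cos_le_one θ)
  set w : Conf n × Conf n → ℝ := fun z => soft (cv n) g z.1 * soft (cv n) g' z.2
  have hw0 : ∀ z, 0 ≤ w z := fun z => mul_nonneg (soft_nonneg _ _ _) (soft_nonneg _ _ _)
  have hw1 : ∑ z, w z = 1 := by
    simp only [w, Fintype.sum_prod_type, ← mul_sum, soft_sum, mul_one]
  set T := ∑ z, w z * (ov z.1 z.2 ^ 2 / (2 * n)) with hT
  have hT0 : 0 ≤ T := sum_nonneg fun z _ => mul_nonneg (hw0 z) (by positivity)
  have hTn : T ≤ (n : ℝ) / 2 := by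
    refine (sum_le_sum fun z _ => mul_le_mul_of_nonneg_left (?_ : _ ≤ (n : ℝ) / 2) (hw0 z)).trans_eq
      (by rw [← sum_mul, hw1, one_mul])
    obtain ⟨j, hj, e⟩ := ov_mem z.1 z.2
    rw [e, div_le_iff₀ (by positivity)]
    have hjn : (j : ℝ) ≤ n := by exact_mod_cast hj
    linarith [mul_nonneg (Nat.cast_nonneg (α := ℝ) j) (sub_nonneg.2 hjn)]
  have e1 : ∑ i, gm n i g * gm n i g' = ∑ z : Conf n × Conf n, w z * ((ov z.1 z.2 ^ 2 - n) / (2 * n)) := by
    rw [Fintype.sum_prod_type]
    simp only [gm, w, ← cv_dot hn]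
    simp only [sum_mul_sum]
    rw [sum_comm]
    refine sum_congr rfl fun x _ => ?_
    rw [sum_comm]
    refine sum_congr rfl fun y _ => ?_
    rw [mul_sum]
    exact sum_congr rfl fun i _ => by ring
  have e2 : ∑ i, gm n i g * gm n i g' = T - 1 / 2 := by
    rw [e1, hT]
    simp only [sub_div, mul_sub, sum_sub_distrib, ← sum_mul, hw1]
    field_simp
  have hJ : η * T ≤ log (two n θ p) - fe n g - fe n g' := by
    rw [← exp_le_exp]
    have hconv := convexOn_exp.map_sum_le (t := (univ : Finset (Conf n × Conf n))) (w := w)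
      (p := fun z => η * (ov z.1 z.2 ^ 2 / (2 * n))) (fun z _ => hw0 z) hw1 (fun z _ => Set.mem_univ _)
    simp only [smul_eq_mul] at hconv
    rw [show η * T = ∑ z, w z * (η * (ov z.1 z.2 ^ 2 / (2 * n))) by
      rw [hT, mul_sum]; exact sum_congr rfl fun z _ => by ring]
    refine hconv.trans (le_of_eq ?_)
    rw [exp_sub, exp_sub, exp_log (two_pos n θ p), exp_fe, exp_fe, two, Fintype.sum_prod_type]
    have hZ := (lse_den_pos (cv n) g).ne'
    have hZ' := (lse_den_pos (cv n) g').ne'
    simp only [w, soft]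
    generalize ∑ s, exp (lin (cv n s) g) = Z at hZ ⊢
    generalize ∑ s, exp (lin (cv n s) g') = Z' at hZ' ⊢
    simp only [sum_div]
    refine sum_congr rfl fun x _ => sum_congr rfl fun y _ => ?_
    rw [show η * (ov x y ^ 2 / (2 * n)) = (1 - cos θ) * ov x y ^ 2 / (2 * n) by simp only [η]; ring,
      exp_add, exp_add]
    field_simp
    rfl
  rw [e2]
  have hη1 : η ≤ 1 := by simp only [η]; linarith
  have habs : |T - 1 / 2| ≤ T + 1 / 2 := abs_le.2 ⟨by linarith, by linarith⟩
  have hinv : 1 / (n : ℝ) ≤ 1 := by rw [div_le_one hn0]; exact hn1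
  have hTn' : 1 / (n : ℝ) * T ≤ 1 / 2 := by
    rw [one_div_mul_eq_div, div_le_iff₀ hn0]; linarith
  refine (mul_le_mul_of_nonneg_left habs (by positivity)).trans ?_
  linarith

theorem tw_double_mean (hn : 1 ≤ n) {s : ℝ} (hs : 0 ≤ s) (hs1 : 2 * s ≤ 1) :
    ∫ g, tw n s g ^ 2 ∂gp (Pair n) ≤ 1 := by
  obtain ⟨hi, he⟩ := exp_fe_mean hn
  have hpt : ∀ g, tw n s g ^ 2 ≤ (1 - 2 * s) + 2 * s * exp (fe n g) := fun g => by
    have h := convexOn_exp.2 (Set.mem_univ (0 : ℝ)) (Set.mem_univ (fe n g)) (by linarith : 0 ≤ 1 - 2 * s)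
      (by linarith : 0 ≤ 2 * s) (by ring)
    simp only [smul_eq_mul, mul_zero, zero_add, exp_zero, mul_one] at h
    refine le_of_eq_of_le ?_ h
    rw [tw, ← exp_nat_mul]; push_cast; ring_nf
  refine (integral_mono (((growth_tw n s).mul (growth_tw n s)).integrable.congr (ae_of_all _ fun g =>
    (pow_two _).symm)) ((integrable_const _).add (hi.const_mul _)) hpt).trans_eq ?_
  simp only [Pi.add_apply]
  rw [integral_add (integrable_const _) (hi.const_mul _), integral_const_mul, he]
  simp

/-- The derivative against the annealed bound and the means themselves. -/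
theorem deriv_bound (hn : 1 ≤ n) {s : ℝ} (hs : 0 ≤ s) (hs1 : 2 * s ≤ 1) {θ : ℝ} (h0 : 0 ≤ cos θ) :
    (1 - cos θ + 1 / n) * |∫ p, ∑ i, -gm n i (cg p) * tw₁ n s i (rot θ p) ∂gp (Pair n ⊕ Pair n)|
      ≤ s * ((log ((n : ℝ) + 1) + 2 * (s * dfe n) + 4) * mass n s + Gf n s θ + Gf n s 0) := by
  have hn0 : (0 : ℝ) < n := by exact_mod_cast hn
  set η := 1 - cos θ + 1 / (n : ℝ)
  have hη : 0 ≤ η := add_nonneg (sub_nonneg.2 (cos_le_one θ)) (by positivity)
  set a := 2 * (s * dfe n) with ha
  set M := (n : ℝ) + 1 with hM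
  have hM0 : 0 < M := by positivity
  have e : ∀ p : Pair n ⊕ Pair n → ℝ, ∑ i, -gm n i (cg p) * tw₁ n s i (rot θ p)
      = -(s * (tw n s (rot θ p) * ∑ i, gm n i (cg p) * gm n i (rot θ p))) := fun p => by
    simp only [tw₁, mul_sum, ← sum_neg_distrib]; exact sum_congr rfl fun i _ => by ring
  simp only [e]
  rw [integral_neg, abs_neg, integral_const_mul, abs_mul, abs_of_nonneg hs, mul_left_comm]
  refine mul_le_mul_of_nonneg_left ?_ hs
  refine (mul_le_mul_of_nonneg_left abs_integral_le_integral_abs hη).trans ?_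
  rw [← integral_const_mul]
  have gT : Growth fun p : Pair n ⊕ Pair n → ℝ => tw n s (rot θ p) := (growth_tw n s).comp_rot θ
  have gX : Growth fun p : Pair n ⊕ Pair n → ℝ => -fe n (cg p) * tw n s (rot θ p) :=
    (growth_fe n).neg.comp_cg.mul gT
  have gX' : Growth fun p : Pair n ⊕ Pair n → ℝ => -fe n (rot θ p) * tw n s (rot θ p) :=
    ((growth_fe n).neg.mul (growth_tw n s)).comp_rot θ
  set R := fun p : Pair n ⊕ Pair n → ℝ => exp (-(a / 2)) * (two n θ p / M + tw n s (rot θ p) * tw n s (rot θ p))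
  have gR : Growth R := (growth_const _).mul
    ((by simpa only [div_eq_mul_inv] using (growth_two n θ).mul (growth_const M⁻¹) :
      Growth fun p => two n θ p / M).add (gT.mul gT))
  have hb : ∀ p, η * |tw n s (rot θ p) * ∑ i, gm n i (cg p) * gm n i (rot θ p)|
      ≤ (log M + a + 2) * tw n s (rot θ p) + R p + (-fe n (cg p) * tw n s (rot θ p))
        + (-fe n (rot θ p) * tw n s (rot θ p)) := fun p => by
    have hw : 0 < tw n s (rot θ p) := exp_pos _
    rw [abs_mul, abs_of_pos hw, mul_left_comm]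
    refine (mul_le_mul_of_nonneg_left (grad_dot_le hn h0 p) hw.le).trans ?_
    set y := two n θ p / M * exp (-a)
    have hy : 0 < y := by have := two_pos n θ p; positivity
    have hlog : log (two n θ p) = log M + a + log y := by
      simp only [y]
      rw [log_mul (div_pos (two_pos n θ p) hM0).ne' (exp_pos _).ne', log_exp,
        log_div (two_pos n θ p).ne' hM0.ne']
      ring
    have hly : log y ≤ 2 * √y := by
      have := log_le_sub_one_of_pos (sqrt_pos.2 hy)
      rw [log_sqrt hy.le] at this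
      linarith
    have hamgm : tw n s (rot θ p) * (2 * √y) ≤ R p := by
      have hs' : √y = √(two n θ p / M) * exp (-(a / 2)) := by
        simp only [y]
        rw [sqrt_mul (by have := two_pos n θ p; positivity), ← exp_half, neg_div]
      rw [hs']
      simp only [R]
      have h2 := two_mul_le_add_sq (√(two n θ p / M)) (tw n s (rot θ p))
      rw [sq_sqrt (by have := two_pos n θ p; positivity)] at h2
      linarith [mul_le_mul_of_nonneg_left h2 (exp_pos (-(a / 2))).le]
    nlinarith [mul_le_mul_of_nonneg_left hly hw.le]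
  have i1 := gT.integrable.const_mul (log M + a + 2)
  have hL : Integrable (fun p => η * |tw n s (rot θ p) * ∑ i, gm n i (cg p) * gm n i (rot θ p)|)
      (gp (Pair n ⊕ Pair n)) :=
    ((gT.mul (growth_sum univ fun i _ => (growth_gm n i).comp_cg.mul
      ((growth_gm n i).comp_rot θ))).integrable.abs).const_mul η
  refine (integral_mono hL (((i1.add gR.integrable).add gX.integrable).add gX'.integrable) hb).trans ?_
  simp only [Pi.add_apply]
  have i12 : Integrable (fun p => (log M + a + 2) * tw n s (rot θ p) + R p) (gp (Pair n ⊕ Pair n)) :=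
    i1.add gR.integrable
  have i123 : Integrable (fun p => (log M + a + 2) * tw n s (rot θ p) + R p
      + -fe n (cg p) * tw n s (rot θ p)) (gp (Pair n ⊕ Pair n)) := i12.add gX.integrable
  rw [integral_add i123 gX'.integrable, integral_add i12 gX.integrable, integral_add i1 gR.integrable,
    integral_const_mul,
    show ∫ p, tw n s (rot θ p) ∂gp (Pair n ⊕ Pair n) = mass n s from integral_rot (growth_tw n s) θ,
    integral_rot ((growth_fe n).neg.mul (growth_tw n s)) θ]
  have hR : ∫ p, R p ∂gp (Pair n ⊕ Pair n) ≤ 2 * mass n s := by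
    simp only [R]
    rw [integral_const_mul, integral_add ((growth_two n θ).integrable.div_const M) (gT.mul gT).integrable,
      integral_div]
    have h1 : (∫ p, two n θ p ∂gp (Pair n ⊕ Pair n)) / M ≤ 1 := (div_le_one hM0).2 (two_mean hn h0)
    have h2 : ∫ p, tw n s (rot θ p) * tw n s (rot θ p) ∂gp (Pair n ⊕ Pair n) ≤ 1 := by
      rw [integral_rot ((growth_tw n s).mul (growth_tw n s)) θ]
      simp only [← pow_two]; exact tw_double_mean hn hs hs1
    have h3 : exp (-(a / 2)) ≤ mass n s := by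
      rw [ha, show 2 * (s * dfe n) / 2 = s * dfe n by ring]; exact mass_ge n s
    nlinarith [exp_pos (-(a / 2))]
  have h0' : ∫ g, -fe n g * tw n s g ∂gp (Pair n) = Gf n s 0 := by
    rw [Gf_zero]; simp only [neg_mul]; rw [integral_neg]
  rw [h0']
  change _ + _ + Gf n s θ + Gf n s 0 ≤ _
  linarith

theorem dfe_nonneg (hn : 1 ≤ n) : 0 ≤ dfe n := by
  obtain ⟨hi, he⟩ := exp_fe_mean hn
  have := integral_mono ((growth_fe n).integrable.add (integrable_const 1)) hi fun g => add_one_le_exp _
  simp only [Pi.add_apply] at this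
  rw [integral_add (growth_fe n).integrable (integrable_const 1), he] at this
  simp at this
  rw [dfe]; linarith

/-- The mean hardly moves with the angle. -/
theorem swing (hn : 1 ≤ n) {s : ℝ} (hs : 0 ≤ s) (hs1 : 2 * s ≤ 1)
    (hsL : s * log ((n : ℝ) + 1) ≤ 1 / 16) :
    (dfe n - (log ((n : ℝ) + 1) + 4 + 3 * dfe n) / 14) * mass n s ≤ Gf n s 0 := by
  have hn0 : (0 : ℝ) < n := by exact_mod_cast hn
  have hE := mass_pos n s
  have hD := dfe_nonneg hn
  set E := mass n s
  set D := dfe n
  set L := log ((n : ℝ) + 1) with hL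
  have hL0 : 0 ≤ L := log_nonneg (by linarith)
  have hcont : Continuous (Gf n s) := continuous_iff_continuousAt.2 fun θ => (hasDeriv_Gf n s θ).continuousAt
  obtain ⟨θ₀, hθ₀, hmax⟩ := isCompact_Icc.exists_isMaxOn (Set.nonempty_Icc.2 (by positivity : (0 : ℝ) ≤ π / 2))
    ((continuous_abs.comp (hcont.sub continuous_const)).continuousOn :
      ContinuousOn (fun θ => |Gf n s θ - D * E|) (Set.Icc 0 (π / 2)))
  set S := |Gf n s θ₀ - D * E| with hS
  have hb : ∀ θ ∈ Set.Icc (0 : ℝ) (π / 2), |Gf n s θ - D * E| ≤ S := fun θ hθ => hmax hθ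
  set K := s * ((L + 2 * (s * D) + 4) * E + 2 * (D * E) + 2 * S) with hK
  set Lg : ℝ → ℝ := fun θ => log (1 - cos θ + 1 / n)
  have hpos : ∀ θ, 0 < 1 - cos θ + 1 / (n : ℝ) := fun θ =>
    add_pos_of_nonneg_of_pos (sub_nonneg.2 (cos_le_one θ)) (by positivity)
  have hLg : ∀ θ, HasDerivAt Lg (sin θ / (1 - cos θ + 1 / n)) θ := fun θ => by
    exact ((((hasDerivAt_cos θ).const_sub 1).add_const (1 / (n : ℝ))).log (hpos θ).ne').congr_deriv (by simp)
  have hsig : ∀ σ : ℝ, |σ| = 1 → ∀ θ ∈ Set.Icc (0 : ℝ) (π / 2),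
      σ * (Gf n s θ - Gf n s (π / 2)) ≤ K * (Lg (π / 2) - Lg θ) := fun σ hσ θ hθ => by
    have hmono : MonotoneOn (fun r => K * Lg r + σ * Gf n s r) (Set.Icc 0 (π / 2)) := by
      refine monotoneOn_of_deriv_nonneg (convex_Icc _ _)
        (fun r _ => (((hLg r).const_mul K).add ((hasDeriv_Gf n s r).const_mul σ)).continuousAt.continuousWithinAt)
        (fun r _ => (((hLg r).const_mul K).add ((hasDeriv_Gf n s r).const_mul σ)).differentiableAt.differentiableWithinAt)
        fun r hr => ?_
      rw [interior_Icc] at hr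
      have hd : HasDerivAt (fun r => K * Lg r + σ * Gf n s r) _ r :=
        ((hLg r).const_mul K).add ((hasDeriv_Gf n s r).const_mul σ)
      rw [hd.deriv]
      have hc : 0 ≤ cos r := cos_nonneg_of_mem_Icc ⟨by linarith [hr.1, pi_pos], hr.2.le⟩
      have hsn : 0 ≤ sin r := sin_nonneg_of_nonneg_of_le_pi hr.1.le (by linarith [hr.2, pi_pos])
      set I := ∫ p, ∑ i, -gm n i (cg p) * tw₁ n s i (rot r p) ∂gp (Pair n ⊕ Pair n)
      have hI : |I| * (1 - cos r + 1 / n) ≤ K := by
        rw [mul_comm]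
        refine (deriv_bound hn hs hs1 hc).trans ?_
        rw [hK]
        refine mul_le_mul_of_nonneg_left ?_ hs
        have h1 := (abs_le.1 (hb r ⟨hr.1.le, hr.2.le⟩)).2
        have h2 := (abs_le.1 (hb 0 ⟨le_rfl, by positivity⟩)).2
        linarith
      have hI' : σ * I ≤ K / (1 - cos r + 1 / n) := by
        rw [le_div_iff₀ (hpos r)]
        refine le_trans (mul_le_mul_of_nonneg_right ?_ (hpos r).le) hI
        refine (le_abs_self _).trans_eq ?_
        rw [abs_mul, hσ, one_mul]
      have := mul_le_mul_of_nonneg_left hI' hsn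
      rw [show K * (sin r / (1 - cos r + 1 / n)) = sin r * (K / (1 - cos r + 1 / n)) by ring]
      linarith
    have := hmono hθ (Set.right_mem_Icc.2 (by positivity)) hθ.2
    simp only at this
    linarith
  have hlg : Lg (π / 2) - Lg θ₀ ≤ L := by
    have h1 : Lg (π / 2) = log (((n : ℝ) + 1) / n) := by
      simp only [Lg, cos_pi_div_two]; congr 1; field_simp; ring
    have h2 : log (1 / (n : ℝ)) ≤ Lg θ₀ :=
      log_le_log (by positivity) (le_add_of_nonneg_left (sub_nonneg.2 (cos_le_one θ₀)))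
    rw [log_div (by positivity) hn0.ne'] at h1
    rw [one_div, log_inv] at h2
    rw [h1, hL]; linarith
  have hK0 : 0 ≤ K := by
    have : 0 ≤ S := abs_nonneg _
    positivity
  have hSb : S ≤ K * L := by
    rw [hS, abs_le]
    have hp := hsig 1 abs_one θ₀ hθ₀
    have hm := hsig (-1) (by simp) θ₀ hθ₀
    rw [Gf_pi] at hp hm
    have := mul_le_mul_of_nonneg_left hlg hK0
    constructor <;> linarith
  have hKL : K * L ≤ 1 / 16 * ((L + D + 4) * E + 2 * (D * E) + 2 * S) := by
    rw [hK, mul_right_comm]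
    refine mul_le_mul hsL ?_ (by have := abs_nonneg (Gf n s θ₀ - D * E); rw [← hS] at this; positivity) (by norm_num)
    have hsD : 2 * (s * D) ≤ D := by nlinarith
    nlinarith
  have h2 := (abs_le.1 (hb 0 ⟨le_rfl, by positivity⟩)).1
  linarith

/-- The mass of the upper tail. -/
theorem mass_low (hn : 1 ≤ n) {s : ℝ} (hs : 0 ≤ s) (hs1 : s ≤ 1) :
    1 / (8 * ((n : ℝ) + 1)) ≤ mass n s := by
  obtain ⟨hi, he⟩ := exp_fe_mean hn
  obtain ⟨hi2, he2⟩ := exp_fe_sq_mean hn
  set M := (n : ℝ) + 1
  have hM : 0 < M := by positivity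
  have hpt : ∀ g, exp (fe n g) - 1 / 2 - exp (fe n g) ^ 2 / (4 * M) ≤ 2 * M * tw n s g := fun g => by
    have hw := exp_pos (fe n g)
    rcases le_total (exp (fe n g)) (1 / 2) with h | h
    · have h1 : 0 ≤ exp (fe n g) ^ 2 / (4 * M) := by positivity
      have h2 : 0 < 2 * M * tw n s g := mul_pos (by positivity) (exp_pos _)
      linarith
    · have htw : 1 / 2 ≤ tw n s g := by
        rcases le_total 0 (fe n g) with h0 | h0
        · exact le_trans (by norm_num) (one_le_exp (mul_nonneg hs h0))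
        · exact h.trans (exp_le_exp.2 (le_mul_of_le_one_left h0 hs1))
      refine le_trans ?_ (mul_le_mul_of_nonneg_left htw (by positivity))
      have : exp (fe n g) ≤ exp (fe n g) ^ 2 / (4 * M) + M := by
        rw [div_add' _ _ _ (by positivity), le_div_iff₀ (by positivity)]
        linarith [sq_nonneg (exp (fe n g) - 2 * M)]
      linarith
  have hI := (growth_tw n s).integrable.const_mul (2 * M)
  have h := integral_mono ((hi.sub (integrable_const _)).sub (hi2.div_const _)) hI hpt
  simp only [Pi.sub_apply] at h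
  rw [integral_sub (hi.sub' (integrable_const _)) (hi2.div_const _), integral_sub hi (integrable_const _),
    he, integral_const_mul, integral_div] at h
  have h4 : (∫ g, exp (fe n g) ^ 2 ∂gp (Pair n)) / (4 * M) ≤ 1 / 4 := by
    rw [div_le_iff₀ (by positivity)]; linarith
  simp only [integral_const, probReal_univ, one_smul, integral_div] at h
  rw [div_le_iff₀ (by positivity)]
  change 1 ≤ mass n s * (8 * M)
  unfold mass
  linarith

/-- The free energy at the critical temperature. -/
theorem free_crit (hn : 2 ≤ n) :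
    dfe n ≤ 64 * (log ((n : ℝ) + 1) + 4) ^ 2 := by
  have hn1 : 1 ≤ n := by omega
  set L := log ((n : ℝ) + 1) with hL
  have hn2 : (2 : ℝ) ≤ n := by exact_mod_cast hn
  have hL1 : 1 ≤ L := by
    rw [hL, le_log_iff_exp_le (by positivity)]
    linarith [exp_one_lt_d9]
  set s := 1 / (16 * L) with hs
  have hs0 : 0 < s := by positivity
  have hs1 : 2 * s ≤ 1 := by rw [hs, ← mul_div_assoc, div_le_one (by positivity)]; linarith
  have hsL : s * L ≤ 1 / 16 := le_of_eq (by rw [hs]; field_simp)
  set D := dfe n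
  set E := mass n s
  have hE : 0 < E := mass_pos n s
  have hlow := swing hn1 hs0.le hs1 hsL
  have hent : E * log E ≤ -(s * Gf n s 0) := by
    rw [Gf_zero, mul_neg, neg_neg, ← integral_const_mul]
    have hgi : Integrable (fun g => tw n s g * log E + (tw n s g - E)) (gp (Pair n)) :=
      ((growth_tw n s).integrable.mul_const _).add ((growth_tw n s).integrable.sub (integrable_const _))
    refine le_trans (le_of_eq ?_) (integral_mono hgi
      (((growth_fe n).mul (growth_tw n s)).integrable.const_mul s) fun g => ?_)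
    · rw [integral_add ((growth_tw n s).integrable.mul_const _)
        ((growth_tw n s).integrable.sub' (integrable_const _)), integral_mul_const,
        integral_sub (growth_tw n s).integrable (integrable_const _)]
      simp [E, mass]
    · have hw : 0 < tw n s g := exp_pos _
      have hlg : log (E / tw n s g) ≤ E / tw n s g - 1 := log_le_sub_one_of_pos (by positivity)
      rw [log_div hE.ne' hw.ne', show log (tw n s g) = s * fe n g from log_exp _] at hlg
      have := mul_le_mul_of_nonneg_left hlg hw.le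
      rw [mul_sub, mul_sub, mul_div_cancel₀ _ hw.ne', mul_one] at this
      linarith
  have hlogE : -(3 + L) ≤ log E := by
    have h := log_le_log (by positivity) (mass_low hn1 hs0.le (by linarith))
    rw [one_div, log_inv, log_mul (by norm_num) (by positivity)] at h
    have h8 : log 8 ≤ 3 := by
      rw [show (8 : ℝ) = 2 ^ 3 by norm_num, log_pow]
      have := log_two_lt_d9
      push_cast; linarith
    linarith
  have h1 : E * (-(3 + L)) ≤ -(s * ((D - (L + 4 + 3 * D) / 14) * E)) :=
    ((mul_le_mul_of_nonneg_left hlogE hE.le).trans hent).trans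
      (neg_le_neg (mul_le_mul_of_nonneg_left hlow hs0.le))
  have h2 : s * (D - (L + 4 + 3 * D) / 14) ≤ 3 + L := by
    refine le_of_mul_le_mul_right ?_ hE
    linarith
  rw [hs, div_mul_eq_mul_div, one_mul, div_le_iff₀ (by positivity)] at h2
  nlinarith

end Vale.Agent.P150.Crit23
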