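import Vale.Agent.P150.Crit23.Wave
import Vale.Agent.P150.Fast.Amp.Dirs
import Vale.Agent.P150.Fast.Amp.Inn

/-!
The Lanczos process on the Gaussian orthogonal ensemble through innovations (P150): in the directions
it generates, the matrix, possibly with a rank one term along the start, is a perturbed Jacobi matrix
with small partial sums, so the recursion of `Crit23.Wave` computes polynomials of the matrix.
-/

open MeasureTheory Real Finset
open scoped Matrix

namespace Vale.Agent.P150.Crit23.Lanczos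

open Fast Fast.Amp

variable {n J : ℕ}

/-- The vectors that generate the directions. -/
def lanW (w : Fin n → ℝ) (G : ℕ → Fin n → ℝ) : ℕ → Fin n → ℝ
  | 0 => w
  | k + 1 => G k

/-- The directions. -/
noncomputable def lanE (J : ℕ) (w : Fin n → ℝ) (G : ℕ → Fin n → ℝ) (k : ℕ) : Fin n → ℝ :=
  dirs (J + 1) 1 (lanW w G) k

/-- A finite family continued by zero. -/
def extSeq {k : ℕ} (x : Fin k → Fin n → ℝ) (c : ℕ) : Fin n → ℝ := if h : c < k then x ⟨c, h⟩ else 0

/-- The rule of selection. -/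
noncomputable def lanSel (J : ℕ) (w : Fin n → ℝ) : Sel n := fun k x => lanE J w (extSeq x) k

/-- The family read off a table. -/
def rows (x : Fin J × Fin n → ℝ) : ℕ → Fin n → ℝ := extSeq fun c i => x (c, i)

theorem rows_apply (x : Fin J × Fin n → ℝ) (k : Fin J) : rows x k = fun i => x (k, i) := by
  simp [rows, extSeq, k.2]

theorem lanSel_ok (J : ℕ) (w : Fin n → ℝ) : (lanSel J w).Ok := fun _ _ => dirs_ok one_pos _ _

theorem lanSel_measurable (J : ℕ) (w : Fin n → ℝ) (k : ℕ) : Measurable (lanSel J w k) := by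
  refine measurable_dirs (W := fun x : Fin k → Fin n → ℝ => lanW w (extSeq x)) (fun i => ?_) k
  cases i with
  | zero => exact measurable_const
  | succ i =>
    simp only [lanW, extSeq]
    split <;> fun_prop

theorem selDir_lan (w : Fin n → ℝ) (x : Fin J × Fin n → ℝ) (k : Fin J) :
    selDir (lanSel J w) x k = lanE J w (rows x) k := by
  refine dirs_congr fun i hi => ?_
  cases i with
  | zero => rfl
  | succ i =>
    have hk : i < k.1 := hi
    simp [lanW, extSeq, rows, hk, hk.trans k.2]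

variable {w : Fin n → ℝ} {G : ℕ → Fin n → ℝ}

/-- The square of a residual. -/
noncomputable def res (J : ℕ) (w : Fin n → ℝ) (G : ℕ → Fin n → ℝ) (k : ℕ) : ℝ :=
  G k ⬝ᵥ G k - ∑ c ∈ range (k + 1), (lanE J w G c ⬝ᵥ G k) ^ 2

theorem sum_Iio_fin {M : ℕ} {α : Type*} [AddCommMonoid α] (f : ℕ → α) (k : Fin M) :
    ∑ c ∈ Iio k, f c = ∑ c ∈ range k.1, f c :=
  sum_bij (fun c _ => c.1) (fun c hc => mem_range.2 (Fin.lt_def.1 (mem_Iio.1 hc)))
    (fun _ _ _ _ h => Fin.ext h)
    (fun b hb => ⟨⟨b, (mem_range.1 hb).trans k.2⟩, mem_Iio.2 (Fin.lt_def.2 (mem_range.1 hb)), rfl⟩)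
    fun _ _ => rfl

theorem lanE_zero (hw : w ⬝ᵥ w = 1) : lanE J w G 0 = w := by
  have e : Iio (⟨0, J.succ_pos⟩ : Fin (J + 1)) = ∅ := by ext c; simp [Fin.lt_def]
  have h : Dom.gsRes 1 (fun i : Fin (J + 1) => lanW w G i) ⟨0, J.succ_pos⟩ = w := by
    rw [Dom.gsRes, e, sum_empty, sub_zero]; rfl
  rw [lanE, dirs, dif_pos J.succ_pos, Dom.gs_eq, h, hw]
  simp

theorem lanE_orth {c d : ℕ} (h : c ≠ d) : lanE J w G c ⬝ᵥ lanE J w G d = 0 := dirs_orth one_pos _ h

theorem lanE_succ {k : ℕ} (hk : k < J) (hr : 1 ≤ res J w G k) :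
    lanE J w G (k + 1) ⬝ᵥ lanE J w G (k + 1) = 1 ∧
    lanE J w G (k + 1) ⬝ᵥ G k = √(res J w G k) ∧
    G k = (∑ c ∈ range (k + 1), (lanE J w G c ⬝ᵥ G k) • lanE J w G c)
      + √(res J w G k) • lanE J w G (k + 1) := by
  set W := fun i : Fin (J + 1) => lanW w G i
  set K : Fin (J + 1) := ⟨k + 1, by omega⟩
  have hgs : ∀ c : Fin (J + 1), Dom.gs 1 W c = lanE J w G c.1 := fun c => by
    rw [lanE, dirs, dif_pos c.2]
  have hq : Dom.gsRes 1 W K ⬝ᵥ Dom.gsRes 1 W K = res J w G k := by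
    rw [Dom.gsRes_sq one_pos, res]
    simp only [hgs]
    rw [sum_Iio_fin (fun c => (lanE J w G c ⬝ᵥ W K) ^ 2) K]
    rfl
  have hge : (1 : ℝ) ^ 2 ≤ Dom.gsRes 1 W K ⬝ᵥ Dom.gsRes 1 W K := by rw [hq, one_pow]; exact hr
  obtain ⟨h1, h2⟩ := Dom.gs_self_dot one_pos K hge
  rw [hq, hgs] at h1
  rw [hgs] at h2
  have h1' : lanE J w G (k + 1) ⬝ᵥ G k = √(res J w G k) := h1
  refine ⟨?_, h1', ?_⟩
  · rcases Dom.gs_unit one_pos (w := W) K with h | h
    · rwa [hgs] at h
    · rw [hgs] at h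
      have h0 : lanE J w G (k + 1) = 0 := h
      rw [h0, zero_dotProduct] at h1'
      linarith [sqrt_pos.2 (one_pos.trans_le hr)]
  · have h3 : Dom.gsRes 1 W K = √(res J w G k) • lanE J w G (k + 1) := by
      rw [h2]
      exact congrArg (fun r => r • lanE J w G (k + 1)) h1'
    rw [Dom.gsRes] at h3
    simp only [hgs] at h3
    rw [sum_Iio_fin (fun c => (lanE J w G c ⬝ᵥ W K) • lanE J w G c) K, sub_eq_iff_eq_add] at h3
    exact h3.trans (add_comm _ _)

theorem lanE_unit (hw : w ⬝ᵥ w = 1) (hr : ∀ k < J, 1 ≤ res J w G k) {c : ℕ} (hc : c ≤ J) :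
    lanE J w G c ⬝ᵥ lanE J w G c = 1 := by
  cases c with
  | zero => rw [lanE_zero hw, hw]
  | succ c => exact (lanE_succ (by omega) (hr c (by omega))).1

theorem lanE_dot {k c : ℕ} (hw : w ⬝ᵥ w = 1) (hr : ∀ l < J, 1 ≤ res J w G l) (hk : k < c) (hc : c ≤ J) :
    lanE J w G c ⬝ᵥ G k = if c = k + 1 then √(res J w G k) else 0 := by
  have hkJ : k < J := by omega
  split_ifs with h
  · subst h; exact (lanE_succ hkJ (hr k hkJ)).2.1
  · rw [(lanE_succ hkJ (hr k hkJ)).2.2, dotProduct_add, dotProduct_sum, dotProduct_smul, lanE_orth h,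
      smul_zero, add_zero]
    exact sum_eq_zero fun b hb => by
      rw [dotProduct_smul, lanE_orth (by have := mem_range.1 hb; omega), smul_zero]

/-- The diagonal of the Jacobi matrix. -/
noncomputable def jA (J : ℕ) (w : Fin n → ℝ) (G : ℕ → Fin n → ℝ) (k : ℕ) : ℝ :=
  if k < J then √2 * (lanE J w G k ⬝ᵥ G k) / √n else 0

/-- The off-diagonal of the Jacobi matrix, less one. -/
noncomputable def jB (J : ℕ) (w : Fin n → ℝ) (G : ℕ → Fin n → ℝ) (k : ℕ) : ℝ :=
  if k < J then √(res J w G k) / √n - 1 else 0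

/-- The polynomials. -/
def pmat (K : Matrix (Fin n) (Fin n) ℝ) : ℕ → Matrix (Fin n) (Fin n) ℝ
  | 0 => 0
  | 1 => 1
  | j + 2 => K * pmat K (j + 1) - pmat K j + 1

/-- The matrix with a rank one term. -/
noncomputable def kmatW (κ : ℝ) (d : Dis n) (w : Fin n → ℝ) : Matrix (Fin n) (Fin n) ℝ :=
  kmat n 1 d + κ • Matrix.vecMulVec w w

theorem kmatW_lanE {d : Dis n} {D : Fin J × (Pair n ⊕ Fin n) → ℝ} (κ : ℝ) (hw : w ⬝ᵥ w = 1)
    (hG : G = rows (inn J (lanSel J w) d D)) (hr : ∀ l < J, 1 ≤ res J w G l) {k : ℕ} (hk : k < J) :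
    kmatW κ d w *ᵥ lanE J w G k = (1 + jB J w G k) • lanE J w G (k + 1) + jA J w G k • lanE J w G k
      + (match k with
        | 0 => κ • lanE J w G 0
        | l + 1 => (1 + jB J w G l) • lanE J w G l) := by
  have h := inn_apply J (lanSel J w) (lanSel_ok J w) d D (fun c l hcl => by
    rw [selDir_lan, selDir_lan]; exact lanE_orth (fun e => hcl.ne (Fin.ext e))) ⟨k, hk⟩
  simp only [selDir_lan, ← rows_apply, ← hG] at h
  rw [lanE_unit hw hr hk.le, one_smul] at h
  rw [sum_Iio_fin (fun c => ((lanE J w G k ⬝ᵥ G c) - lanE J w G c ⬝ᵥ G k) • lanE J w G c) ⟨k, hk⟩] at h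
  set e := lanE J w G
  have hsub : ∑ c ∈ range k, ((e k ⬝ᵥ G c) - e c ⬝ᵥ G k) • e c
      = ∑ c ∈ range k, (e k ⬝ᵥ G c) • e c - ∑ c ∈ range k, (e c ⬝ᵥ G k) • e c := by
    simp only [sub_smul, sum_sub_distrib]
  have hG' : G k = ∑ c ∈ range k, (e c ⬝ᵥ G k) • e c + (e k ⬝ᵥ G k) • e k
      + √(res J w G k) • e (k + 1) := by
    rw [← sum_range_succ]; exact (lanE_succ hk (hr k hk)).2.2
  have hgoe : goe n d *ᵥ e k = √(res J w G k) • e (k + 1) + (√2 * (e k ⬝ᵥ G k)) • e k
      + ∑ c ∈ range k, (e k ⬝ᵥ G c) • e c := by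
    rw [h]
    simp only at hsub ⊢
    rw [hsub]
    conv_lhs => arg 1; arg 1; rw [hG']
    module
  have hn : √(n : ℝ) ≠ 0 := by
    intro h0
    rw [sqrt_eq_zero (Nat.cast_nonneg n), Nat.cast_eq_zero] at h0
    subst h0
    simp [dotProduct] at hw
  have hwk : MulOpposite.op (w ⬝ᵥ e k) • w = (e 0 ⬝ᵥ e k) • e 0 := by
    rw [op_smul_eq_smul, show e 0 = w from lanE_zero hw]
  rw [kmatW, Matrix.add_mulVec, kmat_eq, Matrix.smul_mulVec, Matrix.smul_mulVec, Matrix.vecMulVec_mulVec,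
    hgoe, hwk]
  cases k with
  | zero =>
    have h1 : e 0 ⬝ᵥ e 0 = 1 := lanE_unit hw hr hk.le
    rw [h1]
    simp only [range_zero, sum_empty, add_zero, one_smul, jA, jB, if_pos hk]
    match_scalars <;> field_simp <;> ring
  | succ l =>
    have hl : l < J := by omega
    have hs : ∑ c ∈ range (l + 1), (e (l + 1) ⬝ᵥ G c) • e c = √(res J w G l) • e l := by
      rw [Finset.sum_eq_single l]
      · rw [(lanE_succ hl (hr l hl)).2.1]
      · intro c hc hne
        have := mem_range.1 hc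
        rw [lanE_dot hw hr this hk.le, if_neg (by omega), zero_smul]
      · exact fun h => absurd (mem_range.2 l.lt_succ_self) h
    rw [hs, show e 0 ⬝ᵥ e (l + 1) = 0 from lanE_orth (by omega)]
    simp only [zero_smul, smul_zero, add_zero, jA, jB, if_pos hk, if_pos hl]
    match_scalars <;> field_simp <;> ring

/-- **The polynomials in the directions.** -/
theorem pmat_expand {d : Dis n} {D : Fin J × (Pair n ⊕ Fin n) → ℝ} (κ : ℝ) (hw : w ⬝ᵥ w = 1)
    (hG : G = rows (inn J (lanSel J w) d D)) (hr : ∀ l < J, 1 ≤ res J w G l) :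
    ∀ j ≤ J, pmat (kmatW κ d w) j *ᵥ w
      = ∑ i ∈ range (J + 1), Wave.pseq κ (jA J w G) (jB J w G) j i • lanE J w G i := by
  set a := jA J w G
  set b := jB J w G
  set e := lanE J w G with he
  set K := kmatW κ d w
  have hdl : ∀ i ∈ range J, Wave.dl (i + 1) • e (i + 1) = 0 := fun i _ => zero_smul ℝ _
  have hw1 : w = ∑ i ∈ range (J + 1), Wave.dl i • e i := by
    rw [sum_range_succ' _ J, sum_eq_zero hdl, zero_add, he, lanE_zero hw]
    exact (one_smul ℝ w).symm
  intro j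
  induction j using Nat.strong_induction_on with
  | _ j ih =>
    intro hj
    match j, hj with
    | 0, _ => simp [pmat, Wave.pseq]
    | 1, _ => rw [pmat, Matrix.one_mulVec]; exact hw1
    | j + 2, hj =>
      set v := Wave.pseq κ a b (j + 1)
      have hK : K *ᵥ (∑ i ∈ range (J + 1), v i • e i)
          = ∑ i ∈ range (J + 1), Wave.jac κ a b v i • e i := by
        have hv : ∀ i, J ≤ i + 1 → v i = 0 := fun i hi => Wave.pseq_supp κ a b (j + 1) i (by omega)
        have t1 : ∀ i ∈ range J, v i • K *ᵥ e i = (v i * (1 + b i)) • e (i + 1) + (a i * v i) • e i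
            + (match i with
              | 0 => (κ * v 0) • e 0
              | l + 1 => ((1 + b l) * v (l + 1)) • e l) := fun i hi => by
          rw [kmatW_lanE κ hw hG hr (mem_range.1 hi)]
          cases i <;> simp only [smul_add, smul_smul] <;> module
        rw [Matrix.mulVec_sum]
        simp only [Matrix.mulVec_smul]
        rw [sum_range_succ, hv J (by omega), zero_smul, add_zero, sum_congr rfl t1]
        simp only [sum_add_distrib]
        have e2 : ∀ i, Wave.jac κ a b v i • e i = (a i * v i) • e i + ((1 + b i) * v (i + 1)) • e i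
            + (match i with
              | 0 => (κ * v 0) • e 0
              | l + 1 => (v l * (1 + b l)) • e (l + 1)) := fun i => by
          cases i <;> simp only [Wave.jac] <;> module
        simp only [e2, sum_add_distrib]
        obtain ⟨J', hJ'⟩ : ∃ J', J = J' + 1 := ⟨J - 1, by omega⟩
        rw [sum_range_succ _ J, sum_range_succ _ J, sum_range_succ' _ J]
        simp only
        rw [show v J = 0 from hv J (by omega), show v (J + 1) = 0 from hv _ (by omega)]
        simp only [mul_zero, zero_smul, add_zero]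
        rw [hJ']
        conv_lhs => arg 2; rw [sum_range_succ']
        rw [sum_range_succ (fun i => ((1 + b i) * v (i + 1)) • e i) J',
          show v (J' + 1) = 0 from hv _ (by omega)]
        simp only [mul_zero, zero_smul, add_zero]
        abel
      rw [pmat, Matrix.add_mulVec, Matrix.sub_mulVec, ← Matrix.mulVec_mulVec, Matrix.one_mulVec,
        ih (j + 1) (by omega) (by omega), ih j (by omega) (by omega), hK]
      conv_lhs => rw [hw1]
      rw [← sum_sub_distrib, ← sum_add_distrib]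
      exact sum_congr rfl fun i _ => by rw [← sub_smul, ← add_smul]; rfl

theorem pmat_sq {d : Dis n} {D : Fin J × (Pair n ⊕ Fin n) → ℝ} (κ : ℝ) (hw : w ⬝ᵥ w = 1)
    (hG : G = rows (inn J (lanSel J w) d D)) (hr : ∀ l < J, 1 ≤ res J w G l) :
    (pmat (kmatW κ d w) J *ᵥ w) ⬝ᵥ (pmat (kmatW κ d w) J *ᵥ w)
      = ∑ i ∈ range (J + 1), Wave.pseq κ (jA J w G) (jB J w G) J i ^ 2 := by
  rw [pmat_expand κ hw hG hr J le_rfl, dot_self_eq]
  refine (dirs_comb one_pos _ _ _).trans (sum_congr rfl fun i hi => ?_)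
  have := lanE_unit hw hr (Nat.le_of_lt_succ (mem_range.1 hi))
  rw [lanE] at this
  rw [this, mul_one]

/-- The innovations are typical. -/
structure Nice (J : ℕ) (z : ℝ) (w : Fin n → ℝ) (G : ℕ → Fin n → ℝ) : Prop where
  lin : ∀ l ≤ J, |∑ k ∈ range l, lanE J w G k ⬝ᵥ G k| ≤ z * √J
  one : ∀ k < J, |G k ⬝ᵥ G k - n| ≤ 4 * z * √n
  sums : ∀ l ≤ J, |∑ k ∈ range l, (G k ⬝ᵥ G k - n)| ≤ 4 * z * √(J * n)
  proj : ∀ k < J, ∑ c ∈ range (k + 1), (lanE J w G c ⬝ᵥ G k) ^ 2 ≤ J * z ^ 2

theorem sqrt_lin {y : ℝ} (hy : -1 ≤ y) : |√(1 + y) - 1 - y / 2| ≤ y ^ 2 / 2 := by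
  have hu := sqrt_nonneg (1 + y)
  have hs := sq_sqrt (show 0 ≤ 1 + y by linarith)
  generalize √(1 + y) = u at hu hs
  rw [show y = u ^ 2 - 1 by linarith]
  rw [abs_le]
  have h1 : (u - 1) ^ 2 * 1 ≤ (u - 1) ^ 2 * (u + 1) ^ 2 :=
    mul_le_mul_of_nonneg_left (by linarith) (sq_nonneg _)
  constructor <;> nlinarith

/-- **Small partial sums.** -/
theorem nice_jacobi {z : ℝ} (hJ : 1 ≤ J) (hz : 1 ≤ z) (hsmall : 10 ^ 8 * ((J : ℝ) ^ 3 * z ^ 2) ≤ n)
    (hN : Nice J z w G) :
    (∀ k < J, 1 ≤ res J w G k) ∧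
    (∀ l, |∑ k ∈ range l, jA J w G k| ≤ 8 * (z * √J / √n)) ∧
    (∀ l, |∑ k ∈ range l, jB J w G k| ≤ 8 * (z * √J / √n)) ∧
    192 * (J : ℝ) * (8 * (z * √J / √n)) ≤ 1 := by
  have hJ1 : (1 : ℝ) ≤ J := by exact_mod_cast hJ
  have h108 : (10 : ℝ) ^ 8 ≤ n := le_trans (le_mul_of_one_le_right (by norm_num)
    (one_le_mul_of_one_le_of_one_le (one_le_pow₀ hJ1) (one_le_pow₀ hz))) hsmall
  have hn0 : (0 : ℝ) < n := lt_of_lt_of_le (by norm_num) h108
  set R := √(n : ℝ) with hR
  have hR0 : 0 < R := sqrt_pos.2 hn0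
  have hR2 : R ^ 2 = n := sq_sqrt hn0.le
  set Q := √(J : ℝ) with hQ
  have hQ1 : 1 ≤ Q := one_le_sqrt.2 hJ1
  have hQ2 : Q ^ 2 = J := sq_sqrt (by positivity)
  set t := z * Q / R with ht
  have ht0 : 0 ≤ t := by positivity
  have hJt : (J : ℝ) * t ≤ 1 / 10 ^ 4 := by
    have h : ((J : ℝ) * (z * Q)) ^ 2 ≤ (R / 10 ^ 4) ^ 2 := by
      rw [mul_pow, mul_pow, hQ2, div_pow, hR2, le_div_iff₀ (by positivity)]
      linarith
    have h' := pow_le_pow_iff_left₀ (by positivity) (by positivity) two_ne_zero |>.1 h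
    rw [ht, ← mul_div_assoc, div_le_iff₀ hR0]
    linarith
  have hJt2 : (J : ℝ) * t ^ 2 ≤ t / 10 ^ 4 := by
    have := mul_le_mul_of_nonneg_right hJt ht0
    linarith
  have hzq : (J : ℝ) * z ^ 2 / n = t ^ 2 := by
    rw [ht, div_pow, mul_pow, hQ2, hR2]; ring
  have htle : t ≤ 1 / 10 ^ 4 := le_trans (le_mul_of_one_le_left ht0 hJ1) hJt
  set y := fun k => res J w G k / n - 1 with hyd
  have hy : ∀ k < J, |y k| ≤ 5 * t := fun k hk => by
    have h1 := abs_le.1 (hN.one k hk)
    have h2 := hN.proj k hk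
    have h3 : 0 ≤ ∑ c ∈ range (k + 1), (lanE J w G c ⬝ᵥ G k) ^ 2 := sum_nonneg fun c _ => sq_nonneg _
    have h4 : |res J w G k - n| ≤ 4 * z * R + J * z ^ 2 := by
      rw [abs_le, res]
      constructor <;> linarith
    have e : |y k| = |res J w G k - n| / n := by
      rw [← abs_of_pos hn0, ← abs_div, abs_of_pos hn0, sub_div, div_self hn0.ne']
    rw [e]
    refine (div_le_div_of_nonneg_right h4 hn0.le).trans ?_
    rw [add_div, hzq, show 4 * z * R / (n : ℝ) = 4 * (z / R) by rw [← hR2]; field_simp]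
    have h5 : z / R ≤ t := div_le_div_of_nonneg_right (le_mul_of_one_le_right (by linarith) hQ1) hR0.le
    linarith [mul_le_mul_of_nonneg_right htle ht0]
  refine ⟨fun k hk => ?_, fun l => ?_, fun l => ?_, by linarith⟩
  · have h := (abs_le.1 (hy k hk)).1
    have h' : res J w G k = (n : ℝ) * (1 + y k) := by simp only [hyd]; field_simp; ring
    nlinarith
  · have e : ∀ m ≤ J, ∑ k ∈ range m, jA J w G k = √2 / R * ∑ k ∈ range m, lanE J w G k ⬝ᵥ G k :=
      fun m hm => by
        rw [mul_sum]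
        refine sum_congr rfl fun k hk => ?_
        rw [jA, if_pos (lt_of_lt_of_le (mem_range.1 hk) hm)]; ring
    have hcut : ∑ k ∈ range l, jA J w G k = ∑ k ∈ range (min l J), jA J w G k := by
      refine (sum_subset (range_subset_range.2 (min_le_left l J)) fun k hk hk' => ?_).symm
      have := mem_range.1 hk
      rw [jA, if_neg]
      exact fun h => hk' (mem_range.2 (lt_min this h))
    rw [hcut, e _ (min_le_right _ _), abs_mul, abs_of_nonneg (by positivity)]
    refine (mul_le_mul_of_nonneg_left (hN.lin _ (min_le_right _ _)) (by positivity)).trans ?_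
    rw [div_mul_eq_mul_div, mul_div_assoc]
    refine mul_le_mul_of_nonneg_right ?_ ht0
    exact le_trans (sqrt_le_iff.2 ⟨by norm_num, by norm_num⟩ : √(2 : ℝ) ≤ 2) (by norm_num)
  · have hcut : ∑ k ∈ range l, jB J w G k = ∑ k ∈ range (min l J), jB J w G k := by
      refine (sum_subset (range_subset_range.2 (min_le_left l J)) fun k hk hk' => ?_).symm
      have := mem_range.1 hk
      rw [jB, if_neg]
      exact fun h => hk' (mem_range.2 (lt_min this h))
    rw [hcut]
    set m := min l J with hmd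
    have hm : m ≤ J := min_le_right _ _
    have hb : ∀ k ∈ range m, |jB J w G k - y k / 2| ≤ (5 * t) ^ 2 / 2 := fun k hk => by
      have hk' : k < J := lt_of_lt_of_le (mem_range.1 hk) hm
      have h1 := abs_le.1 (hy k hk')
      have e : √(res J w G k) / R = √(1 + y k) := by
        rw [hR, ← sqrt_div' _ hn0.le]; congr 1; simp [hyd]
      rw [jB, if_pos hk', e]
      refine (sqrt_lin (by linarith)).trans (div_le_div_of_nonneg_right ?_ two_pos.le)
      rw [← sq_abs]
      exact pow_le_pow_left₀ (abs_nonneg _) (hy k hk') 2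
    have h1 : |∑ k ∈ range m, (jB J w G k - y k / 2)| ≤ J * ((5 * t) ^ 2 / 2) := by
      refine (abs_sum_le_sum_abs _ _).trans ((sum_le_sum hb).trans ?_)
      rw [sum_const, card_range, nsmul_eq_mul]
      exact mul_le_mul_of_nonneg_right (Nat.cast_le.2 hm) (by positivity)
    have h2 : |∑ k ∈ range m, y k| ≤ 4 * t + J * t ^ 2 := by
      have e : ∑ k ∈ range m, y k = ((∑ k ∈ range m, (G k ⬝ᵥ G k - n))
          - ∑ k ∈ range m, ∑ c ∈ range (k + 1), (lanE J w G c ⬝ᵥ G k) ^ 2) / n := by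
        rw [← sum_sub_distrib, sum_div]
        exact sum_congr rfl fun k _ => by simp only [hyd, res]; field_simp; ring
      have hp : ∑ k ∈ range m, ∑ c ∈ range (k + 1), (lanE J w G c ⬝ᵥ G k) ^ 2 ≤ J * (J * z ^ 2) := by
        refine (sum_le_sum fun k hk => hN.proj k (lt_of_lt_of_le (mem_range.1 hk) hm)).trans ?_
        rw [sum_const, card_range, nsmul_eq_mul]
        exact mul_le_mul_of_nonneg_right (Nat.cast_le.2 hm) (by positivity)
      rw [e, abs_div, abs_of_pos hn0]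
      refine (div_le_div_of_nonneg_right ((abs_sub _ _).trans (add_le_add (hN.sums m hm)
        ((abs_of_nonneg (sum_nonneg fun k _ => sum_nonneg fun c _ => sq_nonneg _)).trans_le hp)))
        hn0.le).trans_eq ?_
      rw [add_div, mul_div_assoc (J : ℝ), hzq, sqrt_mul (by positivity), ← hQ, ← hR]
      rw [ht, ← hR2]
      field_simp
    have e : ∑ k ∈ range m, jB J w G k
        = ∑ k ∈ range m, (jB J w G k - y k / 2) + (∑ k ∈ range m, y k) / 2 := by
      rw [sum_sub_distrib, ← sum_div]; ring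
    rw [e]
    refine (abs_add_le _ _).trans ?_
    rw [abs_div, abs_two]
    have : (J : ℝ) * ((5 * t) ^ 2 / 2) = 25 / 2 * (J * t ^ 2) := by ring
    linarith

end Vale.Agent.P150.Crit23.Lanczos
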