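import Vale.Agent.P150.Crit23.Events
import Vale.Agent.P150.Crit23.Free
import Vale.Agent.P150.Fast.Quench.Main
import Vale.Agent.P150.CritBase

/-!
From the planted to the quenched measure at the critical temperature (P150): a polynomial of the
coupling matrix has quadratic form of order `M ^ 3` at a Gibbs configuration and `M` at a fixed vector,
so the covariance has norm at least of order `M ^ 2`, with `M = n ^ (1 / 3 - δ)`.
-/

open MeasureTheory ProbabilityTheory Real Finset Filter Topology
open scoped Matrix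

namespace Vale.Agent.P150.Crit23

open Fast Lanczos

variable {n J : ℕ}

/-- The statistic. -/
noncomputable def stat (J : ℕ) (K : Matrix (Fin n) (Fin n) ℝ) (v : Fin n → ℝ) : ℝ :=
  (pmat K J *ᵥ v) ⬝ᵥ (pmat K J *ᵥ v) / n

theorem pmat_gauge (y : Fin n → ℝ) (hy : ∀ i, y i * y i = 1) (K : Matrix (Fin n) (Fin n) ℝ) :
    ∀ j a b, pmat (Matrix.of fun i k => y i * K i k * y k) j a b = y a * pmat K j a b * y b := by
  have h1 : ∀ a b, (1 : Matrix (Fin n) (Fin n) ℝ) a b = y a * (1 : Matrix (Fin n) (Fin n) ℝ) a b * y b :=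
    fun a b => by
      rcases eq_or_ne a b with rfl | h
      · simp [hy]
      · simp [h]
  intro j
  induction j using Nat.strong_induction_on with
  | _ j ih =>
    intro a b
    match j with
    | 0 => simp [pmat]
    | 1 => simp only [pmat]; exact h1 a b
    | j + 2 =>
      simp only [pmat, Matrix.add_apply, Matrix.sub_apply, Matrix.mul_apply, Matrix.of_apply,
        ih j (by omega), ih (j + 1) (by omega)]
      rw [h1 a b, mul_add, add_mul, mul_sub, sub_mul, mul_sum, sum_mul]
      congr 2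
      · refine sum_congr rfl fun k _ => ?_
        linear_combination (y a * K a k * pmat K (j + 1) k b * y b) * hy k
      · rw [← h1]

theorem stat_gauge (y v : Fin n → ℝ) (hy : ∀ i, y i * y i = 1) (K : Matrix (Fin n) (Fin n) ℝ) :
    stat J (Matrix.of fun i k => y i * K i k * y k) (fun i => y i * v i) = stat J K v := by
  have e : pmat (Matrix.of fun i k => y i * K i k * y k) J *ᵥ (fun i => y i * v i)
      = fun a => y a * (pmat K J *ᵥ v) a := by
    funext a
    simp only [Matrix.mulVec, dotProduct, pmat_gauge y hy K, mul_sum]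
    exact sum_congr rfl fun b _ => by linear_combination (y a * pmat K J a b * v b) * hy b
  rw [stat, stat, e]
  simp only [dotProduct]
  congr 1
  exact sum_congr rfl fun a _ => by
    linear_combination ((pmat K J *ᵥ v) a * (pmat K J *ᵥ v) a) * hy a

theorem measurable_pmat {α : Type*} [MeasurableSpace α] {K : α → Matrix (Fin n) (Fin n) ℝ}
    (hK : ∀ a b, Measurable fun p => K p a b) :
    ∀ j a b, Measurable fun p => pmat (K p) j a b := by
  intro j
  induction j using Nat.strong_induction_on with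
  | _ j ih =>
    intro a b
    match j with
    | 0 => simp [pmat]
    | 1 => simp [pmat]
    | j + 2 =>
      simp only [pmat, Matrix.add_apply, Matrix.sub_apply, Matrix.mul_apply]
      exact ((Finset.measurable_fun_sum _ fun k _ => (hK a k).mul (ih (j + 1) (by omega) k b)).sub
        (ih j (by omega) a b)).add_const _

theorem measurable_stat {α : Type*} [MeasurableSpace α] {K : α → Matrix (Fin n) (Fin n) ℝ}
    {v : α → Fin n → ℝ} (hK : ∀ a b, Measurable fun p => K p a b) (hv : Measurable v) :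
    Measurable fun p => stat J (K p) (v p) := by
  have h := measurable_pmat hK J
  simp only [stat, Matrix.mulVec, dotProduct]
  fun_prop

/-- The signs of a field. -/
noncomputable def sgn (h : Fin n → ℝ) : Fin n → ℝ := fun i => if 0 ≤ h i then 1 else -1

/-- The event of a small statistic at the signs. -/
def lowSet (n J : ℕ) : Set ((Fin n → Fin n → ℝ) × (Fin n → ℝ)) :=
  {p | (∀ i, p.2 i ≠ 0) ∧ stat J (Matrix.of p.1) (sgn p.2) < (J : ℝ) ^ 3 / 32}

theorem measurableSet_lowSet : MeasurableSet (lowSet n J) := by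
  rw [lowSet, Set.setOf_and, Set.setOf_forall]
  refine MeasurableSet.inter (MeasurableSet.iInter fun i =>
    (measurableSet_eq_fun ((measurable_pi_apply i).comp measurable_snd) measurable_const).compl)
    (measurableSet_lt (measurable_stat (fun a b => ?_) (measurable_pi_lambda _ fun i => ?_)) measurable_const)
  · simp only [Matrix.of_apply]; fun_prop
  · exact Measurable.ite (measurableSet_le measurable_const ((measurable_pi_apply i).comp measurable_snd))
      measurable_const measurable_const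

theorem gaugeInv_lowSet : GaugeInv (lowSet n J) := by
  intro x K h
  have hy : ∀ i, vec x i * vec x i = 1 := fun i => by rw [← pow_two]; exact Quench.vec_sq x i
  have hne : ∀ i, vec x i ≠ 0 := fun i e => by simpa [e] using hy i
  by_cases h0 : ∀ i, h i ≠ 0
  · have es : sgn (fun i => vec x i * h i) = fun i => vec x i * sgn h i := by
      funext i
      rcases mul_self_eq_one_iff.1 (hy i) with e | e <;>
        rcases lt_or_gt_of_ne (h0 i) with l | l <;>
        simp [sgn, e, l.le, not_le.2 l]
    have h0' : ∀ i, vec x i * h i ≠ 0 := fun i => mul_ne_zero (hne i) (h0 i)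
    simp only [lowSet, Set.mem_setOf_eq, es, h0, h0', true_and, ne_eq, not_false_eq_true, implies_true]
    rw [← stat_gauge (J := J) (vec x) (sgn h) hy (Matrix.of K)]
    rfl
  · simp only [lowSet, Set.mem_setOf_eq, h0, false_and, false_iff, not_and]
    exact fun h' => absurd (fun i => right_ne_zero_of_mul (h' i)) h0

/-- The all-ones vector scaled to unit length. -/
noncomputable def uvec (n : ℕ) : Fin n → ℝ := fun _ => 1 / √(n : ℝ)

theorem uvec_unit (hn : 1 ≤ n) : uvec n ⬝ᵥ uvec n = 1 := by
  have : (0 : ℝ) < n := by exact_mod_cast hn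
  simp [uvec, dotProduct, mul_self_sqrt this.le, ← mul_inv, this.ne']

theorem plantK_eq (d : Dis n) : plantK n 1 d = kmatW 1 d (uvec n) := by
  funext a b
  simp only [plantK, kmatW, Matrix.add_apply, Matrix.smul_apply, Matrix.vecMulVec_apply, uvec, smul_eq_mul]
  rw [div_mul_div_comm, mul_self_sqrt (Nat.cast_nonneg n)]
  ring

theorem big_coord {T : ℝ} (hT : 0 ≤ T) :
    (gp (Fin n)).real {g | ∃ i, T ≤ |g i|} ≤ n * exp (1 / 2 - T ^ 2 / 4) := by
  rw [Set.setOf_exists]
  refine (measureReal_iUnion_fintype_le _).trans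
    ((sum_le_sum (g := fun _ => exp (1 / 2 - T ^ 2 / 4)) fun i _ => ?_).trans_eq (by simp))
  obtain ⟨hi, hv⟩ := integral_exp_sq_le (s := 1 / 4) (by norm_num)
  have hm := mul_meas_ge_le_integral_of_nonneg (μ := gaussianReal 0 1)
    (ae_of_all _ fun x => (exp_pos _).le) hi (exp (T ^ 2 / 4))
  have hs : {x : ℝ | T ≤ |x|} ⊆ {x | exp (T ^ 2 / 4) ≤ exp (1 / 4 * x ^ 2)} := fun x hx => by
    simp only [Set.mem_setOf_eq] at hx ⊢
    refine exp_le_exp.2 ?_
    rw [← sq_abs x]
    linarith [pow_le_pow_left₀ hT hx 2]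
  have h := ((mul_le_mul_of_nonneg_left (measureReal_mono hs (measure_ne_top _ _))
    (exp_pos (T ^ 2 / 4)).le).trans hm).trans hv
  rw [mul_comm, ← le_div_iff₀ (exp_pos _), ← exp_sub] at h
  refine le_trans (le_of_eq ?_) (h.trans (exp_le_exp.2 (by norm_num)))
  exact (measurePreserving_eval (fun _ : Fin n => gaussianReal 0 1) i).measureReal_preimage
    (s := {x : ℝ | T ≤ |x|})
    (measurableSet_le (measurable_const (a := T)) measurable_id.abs).nullMeasurableSet

theorem sgn_side {u : ℝ} (hu : 0 < u) (x : Conf n) {g : Fin n → ℝ} (hg : ∀ i, |g i| < √u) :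
    (∀ i, sideField u x g i ≠ 0) ∧ sgn (sideField u x g) = vec x := by
  have hs := mul_self_sqrt hu.le
  have hd : ∀ i, |√u * g i| < u := fun i => by
    rw [abs_mul, abs_of_pos (sqrt_pos.2 hu)]
    exact (mul_lt_mul_of_pos_left (hg i) (sqrt_pos.2 hu)).trans_eq hs
  refine ⟨fun i => ?_, funext fun i => ?_⟩ <;>
    obtain ⟨h1, h2⟩ := abs_lt.1 (hd i) <;>
    cases hb : x i <;>
    simp only [sgn, sideField, vec, spin, hb, Pi.add_apply, Pi.smul_apply, smul_eq_mul, if_true, if_false,
      Bool.false_eq_true]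
  · linarith
  · linarith
  · rw [if_neg (by linarith)]
  · rw [if_pos (by linarith)]

/-- The planted model rarely has a small statistic. -/
theorem planted_low {z : ℝ} (hJ : 1 ≤ J) (hn : 1 ≤ n) (hz : 1 ≤ z)
    (hsmall : 10 ^ 8 * ((J : ℝ) ^ 3 * z ^ 2) ≤ n) :
    ((disX n).prod (gp (Fin n))).real {p | (plantK n 1 p.1, plantH ((n : ℝ) ^ 2) p.2) ∈ lowSet n J}
      ≤ evBound J z + n * exp (1 / 2 - (n : ℝ) ^ 2 / 4) := by
  have hn0 : (0 : ℝ) < n := by exact_mod_cast hn
  set A := {d : Dis n | ¬ (J : ℝ) ^ 3 / 32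
    ≤ (pmat (kmatW 1 d (uvec n)) J *ᵥ uvec n) ⬝ᵥ (pmat (kmatW 1 d (uvec n)) J *ᵥ uvec n)}
  set B := {g : Fin n → ℝ | ∃ i, (n : ℝ) ≤ |g i|}
  refine le_trans (measureReal_mono (s₂ := A ×ˢ Set.univ ∪ Set.univ ×ˢ B) ?_ (measure_ne_top _ _)) ?_
  · intro p hp
    by_cases hB : p.2 ∈ B
    · exact Or.inr ⟨trivial, hB⟩
    refine Or.inl ⟨?_, trivial⟩
    simp only [B, Set.mem_setOf_eq, not_exists, not_le] at hB
    obtain ⟨-, hs⟩ := hp
    have e : sgn (plantH ((n : ℝ) ^ 2) p.2) = fun _ => 1 := by
      funext i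
      simp only [sgn, plantH, sqrt_sq hn0.le]
      rw [if_pos]
      nlinarith [(abs_lt.1 (hB i)).1]
    have eu : uvec n = (1 / √(n : ℝ)) • fun _ : Fin n => (1 : ℝ) := by funext i; simp [uvec]
    simp only at hs
    rw [e, show Matrix.of (plantK n 1 p.1) = plantK n 1 p.1 from rfl, plantK_eq, stat] at hs
    simp only [A, Set.mem_setOf_eq, not_le]
    refine lt_of_eq_of_lt ?_ hs
    generalize pmat (kmatW 1 p.1 (uvec n)) J = P
    rw [eu, Matrix.mulVec_smul, smul_dotProduct, dotProduct_smul, smul_eq_mul, smul_eq_mul, ← mul_assoc,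
      div_mul_div_comm, mul_self_sqrt hn0.le]
    ring
  · refine (measureReal_union_le _ _).trans (add_le_add ?_ ?_)
    · rw [measureReal_prod_prod, probReal_univ, mul_one]
      exact planted_event hJ hz hsmall (uvec_unit hn)
    · rw [measureReal_prod_prod, probReal_univ, one_mul]
      exact big_coord hn0.le

/-- **The covariance is large** on a disorder whose polynomial is small at the fixed vectors and whose
side-field event is light. -/
theorem cov_large {d : Dis n} (hn : 1 ≤ n) (hJ : 1 ≤ J) {u : ℝ} (hu : 0 < u)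
    (hu' : n * exp (1 / 2 - u / 4) ≤ 1 / 2)
    (hA : ∀ i : Fin n, (pmat (kmat n 1 d) J *ᵥ Pi.single i 1) ⬝ᵥ (pmat (kmat n 1 d) J *ᵥ Pi.single i 1)
      ≤ 4 * J)
    (hW : ∑ x, mu n 1 (offd d) x * (gp (Fin n)).real {g | (kmat n 1 d, sideField u x g) ∈ lowSet n J}
      ≤ 1 / 4)
    {L : ℝ} (hL : Good n 1 (offd d) L) : (J : ℝ) ^ 2 ≤ 256 * L := by
  classical
  have hn0 : (0 : ℝ) < n := by exact_mod_cast hn
  have hJ0 : (0 : ℝ) < J := by exact_mod_cast hJ
  set μ := mu n 1 (offd d)
  set P := pmat (kmat n 1 d) J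
  set thr := (J : ℝ) ^ 3 / 32
  set small := {g : Fin n → ℝ | ∃ i, √u ≤ |g i|}ᶜ
  have hsmall : 1 / 2 ≤ (gp (Fin n)).real small := by
    have h := big_coord (n := n) (sqrt_nonneg u)
    rw [sq_sqrt hu.le] at h
    have hm : MeasurableSet {g : Fin n → ℝ | ∃ i, √u ≤ |g i|} := by
      rw [Set.setOf_exists]
      exact MeasurableSet.iUnion fun i => measurableSet_le measurable_const (by fun_prop)
    simp only [small]
    rw [measureReal_compl hm, probReal_univ]
    linarith
  have hlow : ∀ x, stat J (kmat n 1 d) (vec x) < thr →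
      1 / 2 ≤ (gp (Fin n)).real {g | (kmat n 1 d, sideField u x g) ∈ lowSet n J} := fun x hx => by
    refine hsmall.trans (measureReal_mono (fun g hg => ?_) (measure_ne_top _ _))
    simp only [small, Set.mem_compl_iff, Set.mem_setOf_eq, not_exists, not_le] at hg
    obtain ⟨h0, hs⟩ := sgn_side hu x hg
    refine ⟨h0, ?_⟩
    simp only
    rw [hs]
    exact hx
  have hbelow : ∀ x, μ x * thr - 2 * thr * (μ x
        * (gp (Fin n)).real {g | (kmat n 1 d, sideField u x g) ∈ lowSet n J})
      ≤ μ x * stat J (kmat n 1 d) (vec x) := fun x => by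
    have hμ : 0 ≤ μ x := (mu_pos (offd d) x).le
    have hst : 0 ≤ stat J (kmat n 1 d) (vec x) :=
      div_nonneg (Dom.dot_self_nonneg' _) hn0.le
    have ht : 0 ≤ thr := by positivity
    rcases lt_or_ge (stat J (kmat n 1 d) (vec x)) thr with h | h
    · have := mul_le_mul_of_nonneg_left (hlow x h) (mul_nonneg hμ ht)
      linarith [mul_nonneg hμ hst]
    · have : 0 ≤ (gp (Fin n)).real {g | (kmat n 1 d, sideField u x g) ∈ lowSet n J} := measureReal_nonneg
      linarith [mul_le_mul_of_nonneg_left h hμ, mul_nonneg (mul_nonneg hμ ht) this]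
  have h1 := sum_le_sum (s := univ) fun x _ => hbelow x
  rw [sum_sub_distrib, ← sum_mul, mu_sum, one_mul, ← mul_sum] at h1
  have h2 : ∑ x, μ x * stat J (kmat n 1 d) (vec x) ≤ L / n * ∑ a, ∑ b, P a b ^ 2 := by
    have e : ∀ x, μ x * stat J (kmat n 1 d) (vec x)
        = (∑ a, μ x * (∑ k, P a k * spin (x k)) ^ 2) / n := fun x => by
      simp only [stat, dotProduct, Matrix.mulVec, vec, P, pow_two, mul_div_assoc, mul_sum, sum_div]
    simp only [e]
    rw [← sum_div, sum_comm, div_mul_eq_mul_div, mul_sum]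
    exact div_le_div_of_nonneg_right (sum_le_sum fun a _ => hL.1 fun k => P a k) hn0.le
  have h3 : ∑ a, ∑ b, P a b ^ 2 ≤ n * (4 * J) := by
    rw [sum_comm]
    refine (sum_le_sum fun b _ => le_trans (le_of_eq ?_) (hA b)).trans_eq (by simp)
    rw [Matrix.mulVec_single_one]
    simp [dotProduct, Matrix.col, pow_two]
  have hL0 : 0 ≤ L := by
    have h := hL.1 (Pi.single ⟨0, hn⟩ 1)
    refine le_trans (sum_nonneg fun x _ => mul_nonneg (mu_pos (offd d) x).le (sq_nonneg _)) (h.trans_eq ?_)
    simp [Pi.single_apply]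
  have h4 : thr / 2 ≤ 4 * J * L := by
    have := mul_le_mul_of_nonneg_left hW (show 0 ≤ 2 * thr by positivity)
    have h5 := h1.trans (h2.trans (mul_le_mul_of_nonneg_left h3 (div_nonneg hL0 hn0.le)))
    rw [show L / n * (n * (4 * J)) = 4 * J * L by field_simp] at h5
    linarith
  simp only [thr] at h4
  refine le_of_mul_le_mul_left ?_ hJ0
  linarith

end Vale.Agent.P150.Crit23
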