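import Mathlib

/-!
The Chebyshev recursion on a perturbed half line (P150): with `J` a Jacobi matrix close to the free
one, with `κ ∈ {0, 1}` at the corner, the solution of `p (j + 1) = J p j - p (j - 1) + δ₀` stays close
to the one of the free matrix (`1 {i < j}` for `κ = 0`, `(j - i)⁺` for `κ = 1`) as long as the
partial sums of the perturbation are small against `1 / M`.
-/

open Finset

namespace Vale.Agent.P150.Crit23.Wave

/-- The perturbed Jacobi matrix. -/
def jac (κ : ℝ) (a b : ℕ → ℝ) (v : ℕ → ℝ) : ℕ → ℝ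
  | 0 => a 0 * v 0 + (1 + b 0) * v 1 + κ * v 0
  | i + 1 => a (i + 1) * v (i + 1) + (1 + b (i + 1)) * v (i + 2) + (1 + b i) * v i

/-- The unit vector at the corner. -/
def dl : ℕ → ℝ
  | 0 => 1
  | _ + 1 => 0

/-- The recursion. -/
def pseq (κ : ℝ) (a b : ℕ → ℝ) : ℕ → ℕ → ℝ
  | 0 => fun _ => 0
  | 1 => dl
  | j + 2 => fun i => jac κ a b (pseq κ a b (j + 1)) i - pseq κ a b j i + dl i

/-- The shifted off-diagonal. -/
def bsh (b : ℕ → ℝ) : ℕ → ℝ
  | 0 => 0
  | k + 1 => b k

/-- An exact solution of the free recursion, of size `R` and of variation `2 R` along both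
characteristics. -/
structure Ideal (κ : ℝ) (M : ℕ) (R : ℝ) (I : ℕ → ℕ → ℝ) : Prop where
  κ01 : κ = 0 ∨ κ = 1
  R0 : 0 ≤ R
  zero : ∀ i, I 0 i = 0
  one : ∀ i, I 1 i = dl i
  rec0 : ∀ j, I (j + 2) 0 = I (j + 1) 1 + κ * I (j + 1) 0 - I j 0 + 1
  recs : ∀ j i, I (j + 2) (i + 1) = I (j + 1) (i + 2) + I (j + 1) i - I j (i + 1)
  bound : ∀ j i, j ≤ M → |I j i| ≤ R
  diag : ∀ j i, I (j + 1) (i + 1) = I j i
  anti : ∀ m c : ℕ, m + 1 ≤ M → m ≤ c + 1 →
    ∑ t ∈ range (m - 1), |I (t + 2) (c - (t + 1)) - I (t + 1) (c - t)| ≤ 2 * R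

theorem by_parts {x g : ℕ → ℝ} {S : ℝ} {m : ℕ} (hS : ∀ l ≤ m, |∑ t ∈ range l, x t| ≤ S) :
    |∑ t ∈ range m, x t * g t| ≤ S * (|g (m - 1)| + ∑ t ∈ range (m - 1), |g (t + 1) - g t|) := by
  have hS0 : 0 ≤ S := (abs_nonneg _).trans (hS 0 (Nat.zero_le _))
  rcases Nat.eq_zero_or_pos m with rfl | hm
  · simp only [range_zero, sum_empty, abs_zero]; positivity
  · have e := Finset.sum_range_by_parts g x m
    simp only [smul_eq_mul] at e
    have e' : ∑ t ∈ range m, x t * g t = g (m - 1) * ∑ t ∈ range m, x t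
        - ∑ i ∈ range (m - 1), (g (i + 1) - g i) * ∑ t ∈ range (i + 1), x t := by
      rw [← e]; exact sum_congr rfl fun t _ => mul_comm _ _
    rw [e', mul_add]
    refine (abs_sub _ _).trans (add_le_add ?_ ((abs_sum_le_sum_abs _ _).trans
      ((sum_le_sum fun t ht => ?_).trans_eq (mul_sum _ _ _).symm)))
    · rw [abs_mul, mul_comm S]; exact mul_le_mul_of_nonneg_left (hS m le_rfl) (abs_nonneg _)
    · rw [abs_mul, mul_comm S]
      have := mem_range.1 ht
      exact mul_le_mul_of_nonneg_left (hS _ (by omega)) (abs_nonneg _)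

theorem partial_down {cf : ℕ → ℝ} {S : ℝ} (h : ∀ l, |∑ k ∈ range l, cf k| ≤ S) {c l : ℕ} (hl : l ≤ c + 1) :
    |∑ t ∈ range l, cf (c - t)| ≤ 2 * S := by
  have e : ∀ l, l ≤ c + 1 →
      ∑ t ∈ range l, cf (c - t) = (∑ k ∈ range (c + 1), cf k) - ∑ k ∈ range (c + 1 - l), cf k := by
    intro l
    induction l with
    | zero => simp
    | succ l ih =>
      intro hl
      rw [sum_range_succ, ih (by omega), show c + 1 - l = (c - l) + 1 by omega, sum_range_succ _ (c - l),
        show c + 1 - (l + 1) = c - l by omega]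
      ring
  rw [e l hl]
  exact (abs_sub _ _).trans (by linarith [h (c + 1), h (c + 1 - l)])

theorem bsh_sum {b : ℕ → ℝ} {S : ℝ} (hS : 0 ≤ S) (h : ∀ l, |∑ k ∈ range l, b k| ≤ S) (l : ℕ) :
    |∑ k ∈ range l, bsh b k| ≤ S := by
  cases l with
  | zero => simpa using hS
  | succ l => rw [sum_range_succ']; simpa [bsh] using h l

variable {κ : ℝ} {a b : ℕ → ℝ} {I : ℕ → ℕ → ℝ} {M : ℕ} {R S : ℝ}

/-- The error. -/
def err (κ : ℝ) (a b : ℕ → ℝ) (I : ℕ → ℕ → ℝ) (j i : ℕ) : ℝ := pseq κ a b j i - I j i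

/-- The left ghost value of the error. -/
def ghost (κ : ℝ) (a b : ℕ → ℝ) (I : ℕ → ℕ → ℝ) (j : ℕ) : ℕ → ℝ
  | 0 => κ * err κ a b I j 0
  | i + 1 => err κ a b I j i

/-- The first invariant. -/
def invQ (κ : ℝ) (a b : ℕ → ℝ) (I : ℕ → ℕ → ℝ) (j i : ℕ) : ℝ :=
  err κ a b I (j + 1) i - ghost κ a b I j i

/-- The second invariant. -/
def invP (κ : ℝ) (a b : ℕ → ℝ) (I : ℕ → ℕ → ℝ) (j i : ℕ) : ℝ :=
  err κ a b I (j + 1) i - err κ a b I j (i + 1)

/-- The source. -/
def src (κ : ℝ) (a b : ℕ → ℝ) (t k : ℕ) : ℝ :=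
  a k * pseq κ a b t k + b k * pseq κ a b t (k + 1) + bsh b k * pseq κ a b t (k - 1)

theorem invQ_succ (hI : Ideal κ M R I) (j i : ℕ) :
    invQ κ a b I (j + 1) i = invQ κ a b I j (i + 1) + src κ a b (j + 1) i := by
  cases i with
  | zero =>
    simp only [invQ, ghost, err, src, pseq, jac, dl, bsh, hI.rec0]; ring
  | succ i =>
    simp only [invQ, ghost, err, src, pseq, jac, dl, bsh, hI.recs, Nat.add_sub_cancel]; ring

theorem invP_succ (hI : Ideal κ M R I) (j i : ℕ) :
    invP κ a b I (j + 1) i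
      = ghost κ a b I (j + 1) i - err κ a b I j i + src κ a b (j + 1) i := by
  cases i with
  | zero => simp only [invP, ghost, err, src, pseq, jac, dl, bsh, hI.rec0]; ring
  | succ i => simp only [invP, ghost, err, src, pseq, jac, dl, bsh, hI.recs, Nat.add_sub_cancel]; ring

theorem inv_zero (hI : Ideal κ M R I) (i : ℕ) :
    invQ κ a b I 0 i = 0 ∧ invP κ a b I 0 i = 0 := by
  have h0 : ∀ k, err κ a b I 0 k = 0 := fun k => by simp [err, pseq, hI.zero]
  have h1 : ∀ k, err κ a b I 1 k = 0 := fun k => by simp [err, pseq, hI.one]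
  cases i <;> simp [invQ, invP, ghost, h0, h1]

theorem invQ_eq (hI : Ideal κ M R I) : ∀ j i, invQ κ a b I j i
    = ∑ t ∈ range j, src κ a b (t + 1) (i + j - 1 - t) := by
  intro j
  induction j with
  | zero => intro i; simp [(inv_zero (a := a) (b := b) hI i).1]
  | succ j ih =>
    intro i
    rw [invQ_succ hI, ih, sum_range_succ, show i + (j + 1) - 1 - j = i by omega]
    congr 1
    refine sum_congr rfl fun t _ => ?_
    rw [show i + 1 + j - 1 - t = i + (j + 1) - 1 - t by omega]

theorem invP_eq (hI : Ideal κ M R I) : ∀ j i, ∃ r ≤ j, r ≤ i + 1 ∧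
    (invP κ a b I j i = (∑ t ∈ range r, src κ a b (j - t) (i - t)) ∨
      ∃ q < j, invP κ a b I j i = (∑ t ∈ range r, src κ a b (j - t) (i - t)) + invQ κ a b I q 0 ∨
        invP κ a b I j i = (∑ t ∈ range r, src κ a b (j - t) (i - t)) - invQ κ a b I q 0) := by
  intro j
  induction j with
  | zero => intro i; exact ⟨0, le_rfl, Nat.zero_le _, Or.inl (by simp [(inv_zero (a := a) (b := b) hI i).2])⟩
  | succ j ih =>
    intro i
    cases i with
    | zero =>
      refine ⟨1, by omega, le_rfl, ?_⟩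
      rw [invP_succ hI]
      simp only [range_one, sum_singleton, Nat.sub_zero]
      rcases hI.κ01 with hk | hk
      · cases j with
        | zero =>
          left
          have h0 : err κ a b I 0 0 = 0 := by simp [err, pseq, hI.zero]
          simp [ghost, hk] at h0 ⊢
          simp [h0]
        | succ j =>
          right
          refine ⟨j, by omega, Or.inr ?_⟩
          simp only [invQ, ghost, hk]; ring
      · right
        refine ⟨j, by omega, Or.inl ?_⟩
        simp only [invQ, ghost, hk]; ring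
    | succ i =>
      obtain ⟨r, hr, hri, h⟩ := ih i
      refine ⟨r + 1, by omega, by omega, ?_⟩
      have e : invP κ a b I (j + 1) (i + 1) = invP κ a b I j i + src κ a b (j + 1) (i + 1) := by
        rw [invP_succ hI]; simp only [invP, ghost]
      have es : ∑ t ∈ range (r + 1), src κ a b (j + 1 - t) (i + 1 - t)
          = (∑ t ∈ range r, src κ a b (j - t) (i - t)) + src κ a b (j + 1) (i + 1) := by
        rw [sum_range_succ']; simp
      rw [e, es]
      rcases h with h | ⟨q, hq, h | h⟩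
      · left; rw [h]
      · right; exact ⟨q, by omega, Or.inl (by rw [h]; ring)⟩
      · right; exact ⟨q, by omega, Or.inr (by rw [h]; ring)⟩

/-- The bounds up to the time `j`. -/
def Bd (κ : ℝ) (a b : ℕ → ℝ) (I : ℕ → ℕ → ℝ) (q : ℝ) (j : ℕ) : Prop :=
  (∀ i, |err κ a b I j i| ≤ j * q) ∧
  ∀ t < j, ∀ i, |invQ κ a b I t i| ≤ q ∧ |invP κ a b I t i| ≤ q

theorem pseq_abs (hI : Ideal κ M R I) {q : ℝ} (hq : 0 ≤ q) (hMq : (M : ℝ) * q ≤ R / 2) {t : ℕ} (ht : t ≤ M)
    (h : Bd κ a b I q t) (k : ℕ) : |pseq κ a b t k| ≤ 3 / 2 * R := by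
  have e : pseq κ a b t k = I t k + err κ a b I t k := by rw [err]; ring
  rw [e]
  have := mul_le_mul_of_nonneg_right (Nat.cast_le (α := ℝ).2 ht) hq
  linarith [abs_add_le (I t k) (err κ a b I t k), hI.bound t k ht, h.1 k]

theorem sum_line (hI : Ideal κ M R I) {q : ℝ} (hq : 0 ≤ q) (hMq : (M : ℝ) * q ≤ R / 2) {cf : ℕ → ℝ}
    (hcf : ∀ l, |∑ k ∈ range l, cf k| ≤ S) {j c d : ℕ} (hj : j + 1 ≤ M) (hB : ∀ t ≤ j, Bd κ a b I q t)
    (hjc : j ≤ c + 1) (hjd : j ≤ d + 1) :
    |∑ t ∈ range j, cf (c - t) * pseq κ a b (t + 1) (d - t)| ≤ 8 * S * R := by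
  have hS : 0 ≤ S := (abs_nonneg _).trans (hcf 0)
  have hR := hI.R0
  rcases Nat.eq_zero_or_pos j with rfl | hj0
  · simp; positivity
  refine (by_parts (m := j) fun l hl => partial_down hcf (c := c) (l := l) (by omega)).trans ?_
  have h1 := pseq_abs hI hq hMq (t := j - 1 + 1) (by omega) (hB _ (by omega)) (d - (j - 1))
  have h2 : ∀ t ∈ range (j - 1), |pseq κ a b (t + 1 + 1) (d - (t + 1)) - pseq κ a b (t + 1) (d - t)|
      ≤ |I (t + 2) (d - (t + 1)) - I (t + 1) (d - t)| + q := fun t ht => by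
    have := mem_range.1 ht
    have hp := ((hB (t + 2) (by omega)).2 (t + 1) (by omega) (d - (t + 1))).2
    rw [invP, show d - (t + 1) + 1 = d - t by omega] at hp
    simp only [err] at hp
    refine le_trans (le_of_eq (congrArg _ ?_)) ((abs_add_le _ _).trans (add_le_add le_rfl hp))
    ring
  have h3 := sum_le_sum h2
  rw [sum_add_distrib, sum_const, card_range, nsmul_eq_mul] at h3
  have h4 := mul_le_mul_of_nonneg_right (Nat.cast_le (α := ℝ).2 (show j - 1 ≤ M by omega)) hq
  have h5 := hI.anti j d hj hjd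
  refine (mul_le_mul_of_nonneg_left (?_ : _ ≤ 4 * R) (by linarith : 0 ≤ 2 * S)).trans_eq (by ring)
  linarith

theorem sum_diag (hI : Ideal κ M R I) {q : ℝ} (hq : 0 ≤ q) (hMq : (M : ℝ) * q ≤ R / 2) {cf : ℕ → ℝ}
    (hcf : ∀ l, |∑ k ∈ range l, cf k| ≤ S) {j i k r : ℕ} (hj : j ≤ M) (hB : ∀ t ≤ j, Bd κ a b I q t)
    (hrj : r ≤ j) (hri : r ≤ i + 1) (hrk : r ≤ k + 1) :
    |∑ t ∈ range r, cf (i - t) * pseq κ a b (j - t) (k - t)| ≤ 8 * S * R := by
  have hS : 0 ≤ S := (abs_nonneg _).trans (hcf 0)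
  have hR := hI.R0
  rcases Nat.eq_zero_or_pos r with rfl | hr0
  · simp; positivity
  refine (by_parts (m := r) fun l hl => partial_down hcf (c := i) (l := l) (by omega)).trans ?_
  have h1 := pseq_abs hI hq hMq (t := j - (r - 1)) (by omega) (hB _ (by omega)) (k - (r - 1))
  have h2 : ∀ t ∈ range (r - 1), |pseq κ a b (j - (t + 1)) (k - (t + 1)) - pseq κ a b (j - t) (k - t)| ≤ q :=
    fun t ht => by
    have := mem_range.1 ht
    have hp := ((hB (j - t) (by omega)).2 (j - (t + 1)) (by omega) (k - t)).1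
    have hd := hI.diag (j - (t + 1)) (k - (t + 1))
    rw [show j - (t + 1) + 1 = j - t by omega, show k - (t + 1) + 1 = k - t by omega] at hd
    obtain ⟨k', hk'⟩ : ∃ k', k - t = k' + 1 := ⟨k - t - 1, by omega⟩
    rw [invQ, show j - (t + 1) + 1 = j - t by omega, hk', ghost, ← hk',
      show k' = k - (t + 1) by omega] at hp
    rw [← abs_neg]
    refine le_of_eq_of_le (congrArg _ ?_) hp
    simp only [err, hd]
    ring
  have h3 := sum_le_sum h2
  rw [sum_const, card_range, nsmul_eq_mul] at h3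
  have h4 := mul_le_mul_of_nonneg_right (Nat.cast_le (α := ℝ).2 (show r - 1 ≤ M by omega)) hq
  refine (mul_le_mul_of_nonneg_left (?_ : _ ≤ 4 * R) (by linarith : 0 ≤ 2 * S)).trans_eq (by ring)
  linarith

/-- **The stability of the recursion.** -/
theorem stable (hI : Ideal κ M R I) (ha : ∀ l, |∑ k ∈ range l, a k| ≤ S)
    (hb : ∀ l, |∑ k ∈ range l, b k| ≤ S) (hMS : 96 * (M : ℝ) * S ≤ 1) :
    ∀ j ≤ M, ∀ i, |pseq κ a b j i - I j i| ≤ 48 * (M : ℝ) * S * R := by
  have hS : 0 ≤ S := (abs_nonneg _).trans (ha 0)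
  have hR := hI.R0
  have hbs := bsh_sum hS hb
  obtain ⟨q, hqd⟩ : ∃ q, q = 48 * S * R := ⟨_, rfl⟩
  have hq : 0 ≤ q := by rw [hqd]; positivity
  have hMq : (M : ℝ) * q ≤ R / 2 := by
    rw [hqd]
    linarith [mul_le_mul_of_nonneg_right hMS hR]
  have anti : ∀ j c, j + 1 ≤ M → (∀ t ≤ j, Bd κ a b I q t) → j ≤ c + 1 →
      |∑ t ∈ range j, src κ a b (t + 1) (c - t)| ≤ 24 * S * R := fun j c hj hB hjc => by
    have e : ∑ t ∈ range j, src κ a b (t + 1) (c - t)
        = ∑ t ∈ range j, a (c - t) * pseq κ a b (t + 1) (c - t)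
          + ∑ t ∈ range j, b (c - t) * pseq κ a b (t + 1) (c + 1 - t)
          + ∑ t ∈ range j, bsh b (c - t) * pseq κ a b (t + 1) (c - 1 - t) := by
      rw [← sum_add_distrib, ← sum_add_distrib]
      refine sum_congr rfl fun t ht => ?_
      have := mem_range.1 ht
      rw [src, show c - t + 1 = c + 1 - t by omega, show c - t - 1 = c - 1 - t by omega]
    have h3 : |∑ t ∈ range j, bsh b (c - t) * pseq κ a b (t + 1) (c - 1 - t)| ≤ 8 * S * R := by
      rcases Nat.lt_or_ge c j with h | h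
      · rw [show j = c + 1 by omega, sum_range_succ, Nat.sub_self, bsh, zero_mul, add_zero]
        rcases Nat.eq_zero_or_pos c with hc | hc
        · subst hc; simp; positivity
        · exact sum_line hI hq hMq hbs (by omega) (fun t ht => hB t (by omega)) (by omega) (by omega)
      · exact sum_line hI hq hMq hbs hj hB hjc (by omega)
    rw [e]
    exact (abs_add_le _ _).trans ((add_le_add ((abs_add_le _ _).trans (add_le_add
      (sum_line hI hq hMq ha hj hB hjc hjc) (sum_line hI hq hMq hb hj hB hjc (by omega)))) h3).trans_eq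
        (by ring))
  have diag : ∀ j i r, j ≤ M → (∀ t ≤ j, Bd κ a b I q t) → r ≤ j → r ≤ i + 1 →
      |∑ t ∈ range r, src κ a b (j - t) (i - t)| ≤ 24 * S * R := fun j i r hj hB hrj hri => by
    have e : ∑ t ∈ range r, src κ a b (j - t) (i - t)
        = ∑ t ∈ range r, a (i - t) * pseq κ a b (j - t) (i - t)
          + ∑ t ∈ range r, b (i - t) * pseq κ a b (j - t) (i + 1 - t)
          + ∑ t ∈ range r, bsh b (i - t) * pseq κ a b (j - t) (i - 1 - t) := by
      rw [← sum_add_distrib, ← sum_add_distrib]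
      refine sum_congr rfl fun t ht => ?_
      have := mem_range.1 ht
      rw [src, show i - t + 1 = i + 1 - t by omega, show i - t - 1 = i - 1 - t by omega]
    have h3 : |∑ t ∈ range r, bsh b (i - t) * pseq κ a b (j - t) (i - 1 - t)| ≤ 8 * S * R := by
      rcases Nat.lt_or_ge i r with h | h
      · rw [show r = i + 1 by omega, sum_range_succ, Nat.sub_self, bsh, zero_mul, add_zero]
        exact sum_diag hI hq hMq hbs hj hB (by omega) (by omega) (by omega)
      · exact sum_diag hI hq hMq hbs hj hB hrj hri (by omega)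
    rw [e]
    exact (abs_add_le _ _).trans ((add_le_add ((abs_add_le _ _).trans (add_le_add
      (sum_diag hI hq hMq ha hj hB hrj hri hri) (sum_diag hI hq hMq hb hj hB hrj hri (by omega)))) h3).trans_eq
        (by ring))
  have main : ∀ j ≤ M, Bd κ a b I q j := by
    intro j
    induction j using Nat.strong_induction_on with
    | _ j ih =>
      intro hjM
      cases j with
      | zero => exact ⟨fun i => by simp [err, pseq, hI.zero], fun t ht => absurd ht (by omega)⟩
      | succ m =>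
        have hB : ∀ t ≤ m, Bd κ a b I q t := fun t ht => ih t (by omega) (by omega)
        have hm := hB m le_rfl
        have hQ : ∀ i, |invQ κ a b I m i| ≤ 24 * S * R := fun i => by
          rcases Nat.eq_zero_or_pos m with h0 | h0
          · subst h0; rw [(inv_zero (a := a) (b := b) hI i).1, abs_zero]; positivity
          · rw [invQ_eq hI]; exact anti m (i + m - 1) hjM hB (by omega)
        have hP : ∀ i, |invP κ a b I m i| ≤ q := fun i => by
          obtain ⟨r, hr, hri, h⟩ := invP_eq (a := a) (b := b) hI m i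
          have hs := diag m i r (by omega) hB hr hri
          have hS0 : 0 ≤ 24 * S * R := by positivity
          rcases h with h | ⟨p, hp, h⟩
          · rw [h, hqd]; linarith
          · have hp' : |invQ κ a b I p 0| ≤ 24 * S * R := by
              rcases Nat.eq_zero_or_pos p with h0 | h0
              · subst h0; rw [(inv_zero (a := a) (b := b) hI 0).1, abs_zero]; positivity
              · rw [invQ_eq hI]; exact anti p (0 + p - 1) (by omega) (fun t ht => hB t (by omega)) (by omega)
            rcases h with h | h <;> rw [h, hqd]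
            · exact (abs_add_le _ _).trans (by linarith)
            · exact (abs_sub _ _).trans (by linarith)
        refine ⟨fun i => ?_, fun t ht i => ?_⟩
        · have hg : |ghost κ a b I m i| ≤ m * q := by
            cases i with
            | zero =>
              rcases hI.κ01 with hk | hk
              · simp [ghost, hk]; positivity
              · simpa [ghost, hk] using hm.1 0
            | succ i => exact hm.1 i
          have e : err κ a b I (m + 1) i = invQ κ a b I m i + ghost κ a b I m i := by rw [invQ]; ring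
          rw [e]
          refine (abs_add_le _ _).trans ((add_le_add ((hQ i).trans ?_) hg).trans_eq
            (b := q + m * q) rfl |>.trans_eq (by push_cast; ring))
          rw [hqd]; linarith [mul_nonneg hS hR]
        · rcases Nat.lt_or_ge t m with h | h
          · exact hm.2 t h i
          · rw [show t = m by omega]
            refine ⟨(hQ i).trans ?_, hP i⟩
            rw [hqd]; linarith [mul_nonneg hS hR]
  intro j hj i
  refine ((main j hj).1 i).trans ?_
  rw [hqd]
  have := mul_le_mul_of_nonneg_right (Nat.cast_le (α := ℝ).2 hj) (by positivity : 0 ≤ 48 * S * R)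
  linarith

theorem anti_mono {f : ℕ → ℝ} (hf : Monotone f) {k : ℕ} {R : ℝ} (h0 : 0 ≤ f 0) (hk : f k ≤ R) :
    ∑ t ∈ range k, |f (t + 1) - f t| ≤ 2 * R := by
  have e : ∀ t ∈ range k, |f (t + 1) - f t| = f (t + 1) - f t := fun t _ =>
    abs_of_nonneg (sub_nonneg.2 (hf t.le_succ))
  rw [sum_congr rfl e, sum_range_sub]
  linarith [h0.trans (hf (Nat.zero_le k))]

/-- The free solution without a corner term. -/
def free0 (j i : ℕ) : ℝ := if i < j then 1 else 0

theorem ideal0 (M : ℕ) : Ideal 0 M 1 free0 := by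
  refine ⟨Or.inl rfl, zero_le_one, fun i => by simp [free0], fun i => ?_, fun j => ?_, fun j i => ?_,
    fun j i _ => ?_, fun j i => by simp [free0], fun m c _ _ => ?_⟩
  · cases i <;> simp [free0, dl]
  · cases j <;> simp [free0]
  · simp only [free0]
    split_ifs <;> first | omega | norm_num
  · simp only [free0]; split_ifs <;> simp
  · refine anti_mono (f := fun t => free0 (t + 1) (c - t)) (fun s t h => ?_) ?_ ?_
    · simp only [free0]; split_ifs <;> first | omega | norm_num
    · simp only [free0]; split_ifs <;> norm_num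
    · simp only [free0]; split_ifs <;> norm_num

/-- The free solution with a corner term. -/
def free1 (j i : ℕ) : ℝ := ((j - i : ℕ) : ℝ)

theorem ideal1 (M : ℕ) : Ideal 1 M M free1 := by
  refine ⟨Or.inr rfl, Nat.cast_nonneg M, fun i => by simp [free1], fun i => ?_, fun j => ?_,
    fun j i => ?_, fun j i hj => ?_, fun j i => by simp [free1], fun m c hm _ => ?_⟩
  · cases i <;> simp [free1, dl]
  · simp only [free1, Nat.add_sub_cancel, Nat.sub_zero]; push_cast; ring
  · simp only [free1]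
    rw [show j + 1 - (i + 2) = j - (i + 1) by omega, show j + 2 - (i + 1) = j + 1 - i by omega]
    ring
  · simp only [free1, Nat.abs_cast, Nat.cast_le]; omega
  · refine anti_mono (f := fun t => free1 (t + 1) (c - t)) (fun s t h => ?_) (Nat.cast_nonneg _) ?_
    · simp only [free1, Nat.cast_le]; omega
    · simp only [free1, Nat.cast_le]; omega

theorem pseq_supp (κ : ℝ) (a b : ℕ → ℝ) : ∀ j i, j ≤ i → pseq κ a b j i = 0 := by
  intro j
  induction j using Nat.strong_induction_on with
  | _ j ih =>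
    intro i hi
    match j, i, hi with
    | 0, i, _ => simp [pseq]
    | 1, i + 1, _ => simp [pseq, dl]
    | j + 2, i + 1, hi =>
      simp [pseq, jac, dl, ih (j + 1) (by omega) (i + 1) (by omega),
        ih (j + 1) (by omega) (i + 2) (by omega), ih (j + 1) (by omega) i (by omega),
        ih j (by omega) (i + 1) (by omega)]

/-- Without a corner term the solution has square at most `4 M`. -/
theorem norm_le {M : ℕ} {a b : ℕ → ℝ} {S : ℝ} (ha : ∀ l, |∑ k ∈ range l, a k| ≤ S)
    (hb : ∀ l, |∑ k ∈ range l, b k| ≤ S) (hMS : 192 * (M : ℝ) * S ≤ 1) (N : ℕ) :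
    ∑ i ∈ range N, pseq 0 a b M i ^ 2 ≤ 4 * M := by
  have hS : 0 ≤ S := (abs_nonneg _).trans (ha 0)
  have h := stable (ideal0 M) ha hb (by linarith [mul_nonneg (Nat.cast_nonneg (α := ℝ) M) hS]) M le_rfl
  have e : ∀ i, pseq 0 a b M i ^ 2 ≤ if i < M then 4 else 0 := fun i => by
    split_ifs with hi
    · have := abs_le.1 (h i)
      simp only [free0, if_pos hi] at this
      nlinarith
    · simp [pseq_supp 0 a b M i (not_lt.1 hi)]
  refine (sum_le_sum fun i _ => e i).trans ?_
  rw [← sum_filter, sum_const, nsmul_eq_mul, mul_comm]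
  refine mul_le_mul_of_nonneg_left (Nat.cast_le.2 ?_) (by norm_num)
  exact (card_le_card fun i hi => mem_range.2 (mem_filter.1 hi).2).trans (card_range M).le

/-- With a corner term it has square at least `M ^ 3 / 32`. -/
theorem norm_ge {M : ℕ} {a b : ℕ → ℝ} {S : ℝ} (ha : ∀ l, |∑ k ∈ range l, a k| ≤ S)
    (hb : ∀ l, |∑ k ∈ range l, b k| ≤ S) (hMS : 192 * (M : ℝ) * S ≤ 1) {N : ℕ} (hN : M < N) :
    (M : ℝ) ^ 3 / 32 ≤ ∑ i ∈ range N, pseq 1 a b M i ^ 2 := by
  have hS : 0 ≤ S := (abs_nonneg _).trans (ha 0)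
  have hM : (0 : ℝ) ≤ M := Nat.cast_nonneg M
  have h := stable (ideal1 M) ha hb (by linarith [mul_nonneg hM hS]) M le_rfl
  refine le_trans ?_ (sum_le_sum_of_subset_of_nonneg (s := range (M / 2 + 1))
    (range_subset_range.2 (by omega)) fun i _ _ => sq_nonneg _)
  have hl : ∀ i ∈ range (M / 2 + 1), ((M : ℝ) / 4) ^ 2 ≤ pseq 1 a b M i ^ 2 := fun i hi => by
    have hi' := mem_range.1 hi
    have h2 : (2 : ℝ) * i ≤ M := by exact_mod_cast (show 2 * i ≤ M by omega)
    refine pow_le_pow_left₀ (by positivity) ?_ 2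
    have := (abs_le.1 (h i)).1
    simp only [free1, Nat.cast_sub (show i ≤ M by omega)] at this
    linarith [mul_le_mul_of_nonneg_right hMS hM]
  refine le_trans ?_ (sum_le_sum hl)
  rw [sum_const, card_range, nsmul_eq_mul]
  have h3 : (M : ℝ) / 2 ≤ ((M / 2 + 1 : ℕ) : ℝ) := by
    rw [div_le_iff₀ two_pos]; exact_mod_cast (show M ≤ (M / 2 + 1) * 2 by omega)
  refine le_trans (le_of_eq ?_) (mul_le_mul_of_nonneg_right h3 (sq_nonneg _))
  ring

end Vale.Agent.P150.Crit23.Wave
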